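import Vale.Agent.P221.T.H609.Rel

/-!
# P221, part T: one step decompositions of the elements of `I^(t+1)`
-/

open MvPolynomial

namespace Vale.Agent.P221.T.H609

section

variable {p : ℕ} [Fact p.Prime] {n : ℕ}

lemma wF_sub {i : Fin n} {ν : Fin n →₀ ℕ} (h : 1 ≤ ν i) :
    wF p (ν - Finsupp.single i 1) + sV p (i + 1) = wF p ν := by
  have hle : Finsupp.single i 1 ≤ ν := by
    rw [Finsupp.single_le_iff]; exact h
  unfold wF
  conv_rhs => rw [← tsub_add_cancel_of_le hle]
  rw [map_add, Finsupp.weight_single, one_smul]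

lemma degree_sub' {i : Fin n} {ν : Fin n →₀ ℕ} (h : 1 ≤ ν i) :
    (ν - Finsupp.single i 1).degree + 1 = ν.degree := by
  have hle : Finsupp.single i 1 ≤ ν := by
    rw [Finsupp.single_le_iff]; exact h
  conv_rhs => rw [← tsub_add_cancel_of_le hle]
  rw [map_add, Finsupp.degree_single]

lemma dec_monomial (D t : ℤ) (ht : 0 ≤ t) (ν : Fin n →₀ ℕ) (c : ℤ_[p]) (hD : wF p ν = D)
    (hc : (p : ℤ_[p]) ^ ((t + 1).toNat - ν.degree) ∣ c) :
    ∃ g : Fin (n + 1) → MvPolynomial (Fin n) ℤ_[p],
      (∀ b : Fin (n + 1), HK p (D - sV p b) (rn p n (g b))) ∧ (∀ b, rn p n (g b) ∈ Ip p t) ∧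
        monomial ν c = ∑ b, vn b * g b := by
  classical
  by_cases hν : ν = 0
  · subst hν
    obtain ⟨c', hc'⟩ := hc
    have h0 : ((t + 1).toNat - (0 : Fin n →₀ ℕ).degree) = t.toNat + 1 := by
      rw [map_zero]; omega
    rw [h0] at hc'
    refine ⟨fun b => if b = 0 then C ((p : ℤ_[p]) ^ t.toNat * c') else 0, ?_, ?_, ?_⟩
    · intro b
      by_cases hb : b = 0
      · subst hb
        simp only [if_true]
        rw [HK_rn]
        intro μ hμ
        rw [coeff_C] at hμ
        split_ifs at hμ with h
        · rw [← h, hD]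
          simp [sV]
        · exact absurd rfl hμ
      · simp only [if_neg hb]
        rw [map_zero]
        exact HK_zero _
    · intro b
      by_cases hb : b = 0
      · subst hb
        simp only [if_true]
        rw [Ip_rn]
        intro μ
        rw [coeff_C]
        split_ifs with h
        · rw [← h, map_zero, Nat.sub_zero]
          exact Dvd.intro _ rfl
        · exact dvd_zero _
      · simp only [if_neg hb]
        rw [map_zero]
        exact Ideal.zero_mem _
    · rw [Finset.sum_eq_single_of_mem 0 (Finset.mem_univ _)]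
      · simp only [if_true]
        unfold vn
        simp only [Fin.cases_zero]
        rw [← C_mul, hc', ← mul_assoc, ← pow_succ', C_apply]
      · intro b _ hb
        simp only [if_neg hb]
        rw [mul_zero]
  · obtain ⟨i, hi⟩ : ∃ i, 1 ≤ ν i := by
      by_contra h
      push Not at h
      apply hν
      ext i
      have := h i
      rw [Finsupp.zero_apply]
      omega
    refine ⟨fun b => if b = i.succ then monomial (ν - Finsupp.single i 1) c else 0, ?_, ?_, ?_⟩
    · intro b
      by_cases hb : b = i.succ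
      · subst hb
        simp only [if_true]
        rw [HK_rn]
        intro μ hμ
        rw [coeff_monomial] at hμ
        split_ifs at hμ with h
        · rw [← h, ← hD, ← wF_sub (p := p) hi, Fin.val_succ]
          ring
        · exact absurd rfl hμ
      · simp only [if_neg hb]
        rw [map_zero]
        exact HK_zero _
    · intro b
      by_cases hb : b = i.succ
      · subst hb
        simp only [if_true]
        rw [Ip_rn]
        intro μ
        rw [coeff_monomial]
        split_ifs with h
        · rw [← h]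
          have := degree_sub' hi
          exact dvd_trans (pow_dvd_pow _ (by omega)) hc
        · exact dvd_zero _
      · simp only [if_neg hb]
        rw [map_zero]
        exact Ideal.zero_mem _
    · rw [Finset.sum_eq_single_of_mem i.succ (Finset.mem_univ _)]
      · simp only [if_true]
        unfold vn
        simp only [Fin.cases_succ]
        have hle : Finsupp.single i 1 ≤ ν := by
          rw [Finsupp.single_le_iff]; exact hi
        rw [X, monomial_mul, one_mul, add_tsub_cancel_of_le hle]
      · intro b _ hb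
        simp only [if_neg hb]
        rw [mul_zero]

/-- every homogeneous `f ∈ I^(t+1)` is `∑ v_b g_b` with `g_b ∈ I^t` homogeneous -/
theorem dec_one (D t : ℤ) (ht : 0 ≤ t) (f : MvPolynomial (Fin n) ℤ_[p])
    (hf : HK p D (rn p n f)) (hf' : rn p n f ∈ Ip p (t + 1)) :
    ∃ g : Fin (n + 1) → MvPolynomial (Fin n) ℤ_[p],
      (∀ b : Fin (n + 1), HK p (D - sV p b) (rn p n (g b))) ∧ (∀ b, rn p n (g b) ∈ Ip p t) ∧
        f = ∑ b, vn b * g b := by
  classical
  have h1 : ∀ ν : Fin n →₀ ℕ, ∃ g : Fin (n + 1) → MvPolynomial (Fin n) ℤ_[p],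
      (∀ b : Fin (n + 1), HK p (D - sV p b) (rn p n (g b))) ∧ (∀ b, rn p n (g b) ∈ Ip p t) ∧
        monomial ν (f.coeff ν) = ∑ b, vn b * g b := by
    intro ν
    by_cases h0 : f.coeff ν = 0
    · refine ⟨fun _ => 0, fun b => ?_, fun b => ?_, ?_⟩
      · rw [map_zero]; exact HK_zero _
      · rw [map_zero]; exact Ideal.zero_mem _
      · rw [h0]; simp
    · exact dec_monomial D t ht ν _ (HK_rn.1 hf ν h0) (Ip_rn.1 hf' ν)
  choose g hg1 hg2 hg3 using h1
  refine ⟨fun b => ∑ ν ∈ f.support, g ν b, ?_, ?_, ?_⟩
  · intro b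
    rw [map_sum]
    exact (weightedHomogeneousSubmodule ℤ_[p] (fun i => sV p (i + 1)) _).sum_mem
      fun ν _ => hg1 ν b
  · intro b
    rw [map_sum]
    exact Ideal.sum_mem _ fun ν _ => hg2 ν b
  · conv_lhs => rw [f.as_sum]
    rw [Finset.sum_congr rfl fun ν _ => hg3 ν, Finset.sum_comm]
    refine Finset.sum_congr rfl fun b _ => ?_
    rw [Finset.mul_sum]

end

end Vale.Agent.P221.T.H609
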