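import Vale.Agent.P221.T.H609.SB2a
import Vale.Agent.P221.T.H609.Dec

/-!
# P221, part T (helper609): the leaf `BPS.SpecB2`: coordinates of operations
-/

open CategoryTheory MonoidalCategory MonObj Limits Pretriangulated
open MvPolynomial (C coeff monomial)
open Vale.Agent.P251.T Vale.Agent.P251.M Vale.Agent.P251.S

set_option linter.unusedSectionVars false

universe u

namespace Vale.Agent.P221.T.H609

variable {𝒯 : Type u} [Category.{0} 𝒯] [Preadditive 𝒯] [HasZeroObject 𝒯]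
    [HasShift 𝒯 ℤ] [∀ n : ℤ, (shiftFunctor 𝒯 n).Additive] [Pretriangulated 𝒯] [IsTriangulated 𝒯]
    [MonoidalCategory 𝒯] [SymmetricCategory 𝒯] [TensorTriangulated 𝒯] [MonoidalClosed 𝒯]
    [HasCoproducts.{0} 𝒯] [HasProducts.{0} 𝒯] [StableCat 𝒯]

variable {p : ℕ} [Fact p.Prime] {R P W : 𝒯} [MonObj R] [IsCommMonObj R] (b : BPS p R P W)

/-- the degree zero inclusion -/
noncomputable abbrev io (b : BPS p R P W) : P⟦(0 : ℤ)⟧ ⟶ P := (shiftFunctorZero 𝒯 ℤ).hom.app P

theorem gc_io {m : ℤ} (γ : P⟦m⟧ ⟶ P) : gc (zero_add m) γ (io b) = γ := by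
  have h := gc_zero_shift (zero_add m) γ (𝟙 P)
  have e : (shiftFunctorZero 𝒯 ℤ).hom.app P ≫ 𝟙 P = io b := Category.comp_id _
  have e' : γ ≫ 𝟙 P = γ := Category.comp_id _
  rwa [e, e'] at h

/-- the image of `t^E` under the augmentation -/
theorem map_io_monomial (E : ℕ →₀ ℕ) :
    PiM.map (b.til b.MP b.cP (io b)) (PiM.of W (dT p E) (b.τ E ≫ b.w)) =
      if E = 0 then b.unit else 0 := by
  have h1 : ext b.MP (b.c⟦(0 : ℤ)⟧' ≫ io b) =
      (shiftFunctorZero 𝒯 ℤ).hom.app (R ⊗ R) ≫ μ[R] ≫ b.c := by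
    have h2 : b.c⟦(0 : ℤ)⟧' ≫ io b = (shiftFunctorZero 𝒯 ℤ).hom.app R ≫ b.c :=
      (shiftFunctorZero 𝒯 ℤ).hom.naturality b.c
    rw [h2, ext_zero_shift, b.c_lin]
  rw [map_of (zero_add _), gc_w_til, h1, gc_zero_shift]
  split_ifs with h
  · subst h
    have h3 := map_zs (μ[R] ≫ b.c) (dT p 0) (b.τ 0)
    rw [← h3, b.τ_zero, map_zs]
    unfold BPS.unit
    congr 1
    simp only [Category.assoc, MonObj.one_mul_assoc, Iso.inv_hom_id_assoc]
  · rw [← Category.assoc, b.τ_mul E h, zero_comp, map_zero]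

/-- the augmentation -/
theorem map_io (A1 : b.SpecA1) (g : GG p) :
    PiM.map (b.til b.MP b.cP (io b)) (b.ω g) = b.kk b.MP b.cP (coeff 0 g) b.unit := by
  classical
  rw [b.ω_apply, map_sum]
  have h1 : ∀ E ∈ g.support, PiM.map (b.til b.MP b.cP (io b))
      (b.kk b.MW b.cW (coeff E g) (PiM.of W (dT p E) (b.τ E ≫ b.w))) =
      if E = 0 then b.kk b.MP b.cP (coeff 0 g) b.unit else 0 := by
    intro E _
    rw [b.kk_lin b.MW b.cW b.MP b.cP _ (A1.til_lin b.MP b.cP (io b)), map_io_monomial]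
    split_ifs with h
    · rw [h]
    · exact map_zero _
  rw [Finset.sum_congr rfl h1, Finset.sum_ite_eq']
  split_ifs with h
  · rfl
  · rw [MvPolynomial.notMem_support_iff.1 h, kk_zero_apply]

/-- the coordinates of `γ` are the constant coefficients of `T γ` -/
theorem T_zero (A1 : b.SpecA1) {m : ℤ} (γ : P⟦m⟧ ⟶ P) (z : GG p) :
    PiM.map (b.til b.MP b.cP γ) (b.ω z) = b.kk b.MP b.cP (coeff 0 (b.T γ z)) b.unit := by
  have h1 := b.til_gc b.MP b.cP (zero_add m) γ (io b)
  rw [gc_io] at h1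
  rw [h1, map_gc, ← A1.ω_T, map_io b A1]

theorem HK_coeff_T (A1 : b.SpecA1) {m : ℤ} (γ : P⟦m⟧ ⟶ P) (E : ℕ →₀ ℕ) :
    HK p (m + dT p E) (coeff 0 (b.T γ (monomial E 1))) := by
  have h := A1.T_homog γ E 0
  have e : dT p 0 = 0 := map_zero _
  rwa [e, sub_zero] at h

theorem map_mult_one {k : ℤ} {f : KK p} (hf : HK p k f) :
    PiM.map (b.til b.MP b.cP (b.mult k f)) (b.ω 1) = b.kk b.MP b.cP f b.unit := by
  have h : b.c⟦k⟧' ≫ b.mult k f = hat b.MP (b.cls k f) := b.c_cext b.cP _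
  rw [map_til_one, Functor.map_comp_assoc, h, hat_unit, of_cls b hf]

theorem eta_zero_homog (A1 : b.SpecA1) (B1 : b.SpecB1) {k : ℤ} {f : KK p} (hf : HK p k f) :
    coeff 0 (b.eta f) = f := by
  have h1 := B1.T_mult k f hf 1
  rw [_root_.mul_one] at h1
  have h2 := T_zero b A1 (b.mult k f) 1
  rw [map_mult_one b hf, h1] at h2
  have h3 := HK_coeff_T b A1 (b.mult k f) 0
  have e : (monomial 0 1 : GG p) = 1 := rfl
  have e' : dT p 0 = 0 := map_zero _
  rw [e, h1, e', add_zero] at h3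
  exact (kk_unit_inj b hf h3 h2).symm

/-- the counit -/
theorem eta_zero (A1 : b.SpecA1) (B1 : b.SpecB1) (f : KK p) : coeff 0 (b.eta f) = f := by
  have h : (MvPolynomial.constantCoeff (R := KK p) (σ := ℕ)).comp b.eta = RingHom.id (KK p) := by
    apply MvPolynomial.ringHom_ext
    · intro a
      have h1 : b.eta (C a) = C (C a) := by
        unfold BPS.eta
        rw [MvPolynomial.coe_eval₂Hom, MvPolynomial.eval₂_C]
        rfl
      rw [RingHom.comp_apply, h1, MvPolynomial.constantCoeff_C]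
      rfl
    · intro i
      have h1 := eta_zero_homog b A1 B1 (k := sV p (i + 1)) (f := MvPolynomial.X i)
        (MvPolynomial.isWeightedHomogeneous_X _ _ i)
      rw [RingHom.comp_apply, MvPolynomial.constantCoeff_eq, h1]
      rfl
  have h2 := congrArg (fun φ : KK p →+* KK p => φ f) h
  rwa [RingHom.comp_apply, MvPolynomial.constantCoeff_eq] at h2

/-- operations with prescribed coordinates -/
theorem exists_T (A1 : b.SpecA1) (m : ℤ) (c : (ℕ →₀ ℕ) → KK p)
    (hc : ∀ E, HK p (m + dT p E) (c E)) :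
    ∃ γ : P⟦m⟧ ⟶ P, ∀ E, coeff 0 (b.T γ (monomial E 1)) = c E := by
  obtain ⟨a, ha, -⟩ := b.basis b.MP b.cP m (fun E => b.cls (m + dT p E) (c E))
  refine ⟨b.cext b.cP a, fun E => ?_⟩
  have h1 := map_til_monomial b b.MP b.cP (b.cext b.cP a) E
  rw [T_zero b A1, b.c_cext, ha E, of_cls b (hc E)] at h1
  exact kk_unit_inj b (HK_coeff_T b A1 _ E) (hc E) h1

theorem rn_vn {n : ℕ} (i : Fin (n + 1)) : rn p n (vn i) = vK p i := by
  induction i using Fin.cases with
  | zero =>
    unfold vn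
    simp only [Fin.cases_zero]
    change _ = ((p : KK p))
    rw [map_natCast, map_natCast]
  | succ i =>
    unfold vn
    simp only [Fin.cases_succ]
    exact MvPolynomial.rename_X _ _

/-- `v_0, …, v_n` -/
theorem HK_vK (i : ℕ) : HK p (sV p i) (vK p i) := by
  cases i with
  | zero =>
    have e : sV p 0 = 0 := by simp [sV]
    have e' : vK p 0 = (C (p : ℤ_[p]) : KK p) := by
      change ((p : KK p)) = _
      rw [map_natCast]
    rw [e, e']
    exact MvPolynomial.isWeightedHomogeneous_C _ _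
  | succ i => exact MvPolynomial.isWeightedHomogeneous_X _ _ i

theorem vK_mem_II (i : ℕ) : vK p i ∈ II p ^ 1 := by
  rw [pow_one]
  unfold II
  cases i with
  | zero => exact Ideal.subset_span (Set.mem_insert _ _)
  | succ i => exact Ideal.subset_span (Set.mem_insert_of_mem _ ⟨i, rfl⟩)

theorem T_sum (A1 : b.SpecA1) {m : ℤ} {ι : Type} (s : Finset ι) (γ : ι → (P⟦m⟧ ⟶ P)) (z : GG p) :
    b.T (∑ i ∈ s, γ i) z = ∑ i ∈ s, b.T (γ i) z := by
  classical
  have h0 : b.T (0 : P⟦m⟧ ⟶ P) = 0 := by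
    have h := A1.T_add (0 : P⟦m⟧ ⟶ P) 0
    rw [add_zero] at h
    refine LinearMap.ext fun z => ?_
    have h1 := LinearMap.congr_fun h z
    rw [LinearMap.add_apply] at h1
    exact left_eq_add.1 h1
  induction s using Finset.induction_on with
  | empty => rw [Finset.sum_empty, Finset.sum_empty, h0]; rfl
  | insert i s hi ih =>
    rw [Finset.sum_insert hi, Finset.sum_insert hi, A1.T_add, LinearMap.add_apply, ih]

theorem coeff_mul_mem {t s : ℕ} {f g : GG p} (hf : ∀ E, coeff E f ∈ II p ^ t)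
    (hg : ∀ E, coeff E g ∈ II p ^ s) (E : ℕ →₀ ℕ) : coeff E (f * g) ∈ II p ^ (t + s) := by
  classical
  rw [MvPolynomial.coeff_mul, pow_add]
  exact Ideal.sum_mem _ fun x _ => Ideal.mul_mem_mul (hf _) (hg _)

theorem appr (A1 : b.SpecA1) (B1 : b.SpecB1) (n : ℕ) (t : ℕ) :
    ∀ (m : ℤ) (c : (ℕ →₀ ℕ) → MvPolynomial (Fin n) ℤ_[p]),
      (∀ E, HK p (m + dT p E) (rn p n (c E))) → (∀ E, rn p n (c E) ∈ Ip p t) →
      ∃ γ : P⟦m⟧ ⟶ P, (∀ E E', coeff E' (b.T γ (monomial E 1)) ∈ Ip p t) ∧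
        ∀ E, coeff 0 (b.T γ (monomial E 1)) = rn p n (c E) := by
  classical
  induction t with
  | zero =>
    intro m c hc _
    obtain ⟨γ, hγ⟩ := exists_T b A1 m (fun E => rn p n (c E)) hc
    refine ⟨γ, fun E E' => ?_, hγ⟩
    unfold Ip
    simp
  | succ t ih =>
    intro m c hc hc'
    have h1 : ∀ E, ∃ g : Fin (n + 1) → MvPolynomial (Fin n) ℤ_[p],
        (∀ i : Fin (n + 1), HK p (m + dT p E - sV p i) (rn p n (g i))) ∧
          (∀ i, rn p n (g i) ∈ Ip p t) ∧ c E = ∑ i, vn i * g i := by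
      intro E
      have h2 := hc' E
      rw [Nat.cast_succ] at h2
      exact dec_one (m + dT p E) t (by positivity) (c E) (hc E) h2
    choose g hg1 hg2 hg3 using h1
    have h2 : ∀ i : Fin (n + 1), ∃ γ : P⟦m - sV p i⟧ ⟶ P,
        (∀ E E', coeff E' (b.T γ (monomial E 1)) ∈ Ip p t) ∧
          ∀ E, coeff 0 (b.T γ (monomial E 1)) = rn p n (g E i) := by
      intro i
      refine ih (m - sV p i) (fun E => g E i) (fun E => ?_) fun E => hg2 E i
      have h3 := hg1 E i
      have e : m - sV p i + dT p E = m + dT p E - sV p i := by ring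
      rw [e]
      exact h3
    choose γ hγ1 hγ2 using h2
    have hT : ∀ z, b.T (∑ i : Fin (n + 1), gc (by omega : sV p i + (m - sV p i) = m) (γ i)
        (b.mult (sV p i) (vK p i))) z = ∑ i : Fin (n + 1), b.eta (vK p i) * b.T (γ i) z := by
      intro z
      rw [T_sum b A1]
      refine Finset.sum_congr rfl fun i _ => ?_
      rw [A1.T_gc, LinearMap.comp_apply, B1.T_mult _ _ (HK_vK i)]
    refine ⟨∑ i : Fin (n + 1), gc (by omega : sV p i + (m - sV p i) = m) (γ i)
        (b.mult (sV p i) (vK p i)), fun E E' => ?_, fun E => ?_⟩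
    · rw [hT, MvPolynomial.coeff_sum]
      refine Ideal.sum_mem _ fun i _ => ?_
      have h3 := coeff_mul_mem (t := 1) (s := t) (B1.eta_II 1 _ (vK_mem_II i))
        (g := b.T (γ i) (monomial E 1)) (fun E' => by
          have h4 := hγ1 i E E'
          unfold Ip at h4
          rwa [Int.toNat_natCast] at h4) E'
      unfold Ip
      rw [Int.toNat_natCast, add_comm t 1]
      exact h3
    · rw [hT, MvPolynomial.coeff_sum, hg3 E, map_sum]
      refine Finset.sum_congr rfl fun i _ => ?_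
      have h3 : coeff 0 (b.eta (vK p i) * b.T (γ i) (monomial E 1)) =
          coeff 0 (b.eta (vK p i)) * coeff 0 (b.T (γ i) (monomial E 1)) := by
        rw [← MvPolynomial.constantCoeff_eq, map_mul]
      rw [h3, hγ2, eta_zero b A1 B1, map_mul, rn_vn]

/-- **(SB2)** -/
theorem specB2 (A1 : b.SpecA1) (B1 : b.SpecB1) : b.SpecB2 where
  T_zero γ z := T_zero b A1 γ z
  eta_zero f := eta_zero b A1 B1 f
  exists_T m c hc := exists_T b A1 m c hc
  appr n m t c hc hc' := by
    rcases le_total 0 t with h | h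
    · lift t to ℕ using h
      exact appr b A1 B1 n t m c hc hc'
    · have e : Ip p t = Ip p ((0 : ℕ) : ℤ) := by
        unfold Ip
        rw [Int.toNat_of_nonpos h]
        rfl
      rw [e] at hc' ⊢
      exact appr b A1 B1 n 0 m c hc hc'

end Vale.Agent.P221.T.H609
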