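import Vale.Agent.P221.T.SrcDef

/-!
# P221, part T (helper609): graded maps of degree zero, units, homogeneity

* `ext_unit`, `hat_unit`, `ext_zero_shift` : unit laws for `ext`, `hat`;
* `map_of`, `map_gc`, `map_zs` : `PiM.map`;
* `kk_mem` : `f • y` is homogeneous of degree `k + m` if `f`, `y` are of degree `m`, `k`;
* `map_til_monomial`, `map_til_one` : the coordinates of `a : P⟦k⟧ ⟶ Y`.
-/

open CategoryTheory MonoidalCategory MonObj Limits Pretriangulated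
open MvPolynomial (C coeff monomial)
open Vale.Agent.P251.T Vale.Agent.P251.M Vale.Agent.P251.S

set_option linter.unusedSectionVars false

universe u

namespace Vale.Agent.P221.T.H609

variable {𝒯 : Type u} [Category.{0} 𝒯] [Preadditive 𝒯] [HasZeroObject 𝒯]
    [HasShift 𝒯 ℤ] [∀ n : ℤ, (shiftFunctor 𝒯 n).Additive] [Pretriangulated 𝒯] [IsTriangulated 𝒯]
    [MonoidalCategory 𝒯] [SymmetricCategory 𝒯] [TensorTriangulated 𝒯] [MonoidalClosed 𝒯]
    [HasCoproducts.{0} 𝒯] [HasProducts.{0} 𝒯] [StableCat 𝒯]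

section units

variable {R : 𝒯} [MonObj R] {X Y Z : 𝒯}

theorem ext_csh (M : ModStr R X) {k : ℤ} (a : Z⟦k⟧ ⟶ X) :
    ext M a = (csh R k Z).inv ≫ (R ◁ a) ≫ M.act := by
  unfold ext fm
  rw [Category.assoc]
  rfl

theorem ext_unit (M : ModStr R X) {k : ℤ} (a : Z⟦k⟧ ⟶ X) :
    (η[R] ▷ Z)⟦k⟧' ≫ ext M a = ((λ_ Z).hom)⟦k⟧' ≫ a := by
  rw [ext_csh, ← Category.assoc, csh_inv_tlMap, Category.assoc, ← whisker_exchange_assoc,
    M.one_act, leftUnitor_naturality, ← csh_leftUnitor, Category.assoc, Iso.inv_hom_id_assoc]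

theorem hat_unit (M : ModStr R X) {k : ℤ} (y : (𝟙_ 𝒯)⟦k⟧ ⟶ X) :
    (η[R])⟦k⟧' ≫ hat M y = y := by
  have h1 : η[R] ≫ (ρ_ R).inv = (ρ_ (𝟙_ 𝒯)).inv ≫ (η[R] ▷ 𝟙_ 𝒯) := by
    rw [rightUnitor_inv_naturality]
  unfold hat
  rw [← Functor.map_comp_assoc, h1, Functor.map_comp_assoc, ext_unit, unitors_equal,
    ← Functor.map_comp_assoc, Iso.inv_hom_id, CategoryTheory.Functor.map_id, Category.id_comp]

theorem fm_zero_shift (F : 𝒯 ⥤ 𝒯) [F.CommShift ℤ] (f : Z ⟶ X) :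
    fm F ((shiftFunctorZero 𝒯 ℤ).hom.app Z ≫ f) =
      (shiftFunctorZero 𝒯 ℤ).hom.app (F.obj Z) ≫ F.map f := by
  unfold fm
  rw [F.commShiftIso_zero ℤ, Functor.CommShift.isoZero_inv_app, F.map_comp, Category.assoc,
    ← F.map_comp_assoc, Iso.inv_hom_id_app]
  simp

theorem ext_zero_shift (M : ModStr R X) (f : Z ⟶ X) :
    ext M ((shiftFunctorZero 𝒯 ℤ).hom.app Z ≫ f) =
      (shiftFunctorZero 𝒯 ℤ).hom.app (R ⊗ Z) ≫ (R ◁ f) ≫ M.act := by
  unfold ext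
  rw [fm_zero_shift, Category.assoc]
  rfl

end units

section pim

variable {X Y Z : 𝒯}

theorem map_of {j k k' : ℤ} (h : j + k = k') (f : Y⟦j⟧ ⟶ Z) (y : (𝟙_ 𝒯)⟦k⟧ ⟶ Y) :
    PiM.map f (PiM.of Y k y) = PiM.of Z k' (gc h y f) := by
  subst h
  unfold PiM.map PiM.of
  rw [DirectSum.toAddMonoid_of]
  rfl

theorem map_gc {m k k' : ℤ} (h : k + m = k') (g : X⟦m⟧ ⟶ Y) (f : Y⟦k⟧ ⟶ Z) (x : PiM X) :
    PiM.map (gc h g f) x = PiM.map f (PiM.map g x) := by
  induction x using DirectSum.induction_on with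
  | zero => rw [map_zero, map_zero, map_zero]
  | of l x =>
    have h1 := map_of (rfl : m + l = m + l) g x
    have h2 := map_of (by omega : k + (m + l) = k' + l) f (gc rfl x g)
    have h3 := map_of (rfl : k' + l = k' + l) (gc h g f) x
    unfold PiM.of at h1 h2 h3
    rw [h1, h2, h3, gc_assoc x g f h rfl (rfl : m + l = m + l) (by omega)]
  | add x y hx hy => rw [map_add, map_add, map_add, hx, hy]

theorem map_zs (f : Y ⟶ Z) (k : ℤ) (y : (𝟙_ 𝒯)⟦k⟧ ⟶ Y) :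
    PiM.map ((shiftFunctorZero 𝒯 ℤ).hom.app Y ≫ f) (PiM.of Y k y) = PiM.of Z k (y ≫ f) := by
  rw [map_of (zero_add k), gc_zero_shift]

theorem mem_gr {k : ℤ} {y : PiM Y} : y ∈ PiM.gr Y k ↔ ∃ z, PiM.of Y k z = y := Iff.rfl

end pim

section b

variable {p : ℕ} [Fact p.Prime] {R P W : 𝒯} [MonObj R] [IsCommMonObj R] (b : BPS p R P W)
  {Y : 𝒯}

theorem kk_C_mem (M : ModStr R Y) (hY : H395.PComplete p Y) (a : ℤ_[p]) {k : ℤ} {y : PiM Y}
    (hy : y ∈ PiM.gr Y k) : b.kk M hY (C a) y ∈ PiM.gr Y k := by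
  obtain ⟨z, rfl⟩ := hy
  obtain ⟨z', hz'⟩ := b.kk_C M hY a z
  exact ⟨z', hz'.symm⟩

theorem kk_X_mem (M : ModStr R Y) (hY : H395.PComplete p Y) (i : ℕ) {k : ℤ} {y : PiM Y}
    (hy : y ∈ PiM.gr Y k) : b.kk M hY (MvPolynomial.X i) y ∈ PiM.gr Y (k + sV p (i + 1)) := by
  obtain ⟨z, rfl⟩ := hy
  rw [b.kk_v M hY i rfl z]
  exact ⟨_, rfl⟩

theorem kk_mul_apply (M : ModStr R Y) (hY : H395.PComplete p Y) (f g : KK p) (y : PiM Y) :
    b.kk M hY (f * g) y = b.kk M hY f (b.kk M hY g y) := by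
  rw [map_mul]
  rfl

theorem kk_add_apply (M : ModStr R Y) (hY : H395.PComplete p Y) (f g : KK p) (y : PiM Y) :
    b.kk M hY (f + g) y = b.kk M hY f y + b.kk M hY g y := by
  rw [map_add]
  rfl

theorem kk_zero_apply (M : ModStr R Y) (hY : H395.PComplete p Y) (y : PiM Y) :
    b.kk M hY 0 y = 0 := by
  rw [map_zero]
  rfl

theorem kk_one_apply (M : ModStr R Y) (hY : H395.PComplete p Y) (y : PiM Y) :
    b.kk M hY 1 y = y := by
  rw [map_one]
  rfl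

theorem kk_sum_apply (M : ModStr R Y) (hY : H395.PComplete p Y) {ι : Type} (s : Finset ι)
    (f : ι → KK p) (y : PiM Y) : b.kk M hY (∑ i ∈ s, f i) y = ∑ i ∈ s, b.kk M hY (f i) y := by
  classical
  induction s using Finset.induction_on with
  | empty => rw [Finset.sum_empty, Finset.sum_empty, kk_zero_apply]
  | insert i s hi ih => rw [Finset.sum_insert hi, Finset.sum_insert hi, kk_add_apply, ih]

theorem kk_monomial_mem (M : ModStr R Y) (hY : H395.PComplete p Y) (ν : ℕ →₀ ℕ) :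
    ∀ (a : ℤ_[p]) {k : ℤ} {y : PiM Y}, y ∈ PiM.gr Y k → b.kk M hY (monomial ν a) y ∈
      PiM.gr Y (k + Finsupp.weight (fun i => sV p (i + 1)) ν) := by
  induction ν using Finsupp.induction_linear with
  | zero =>
    intro a k y hy
    rw [map_zero, add_zero]
    exact kk_C_mem b M hY a hy
  | add ν ξ h1 h2 =>
    intro a k y hy
    have e : (monomial (ν + ξ) a : KK p) = monomial ν a * monomial ξ 1 := by
      rw [MvPolynomial.monomial_mul, _root_.mul_one]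
    rw [e, kk_mul_apply, map_add, add_comm (Finsupp.weight _ ν), ← add_assoc]
    exact h1 a (h2 1 hy)
  | single i n =>
    intro a k y hy
    have e : (monomial (Finsupp.single i n) a : KK p) = C a * MvPolynomial.X i ^ n := by
      rw [MvPolynomial.X_pow_eq_monomial, MvPolynomial.C_mul_monomial, _root_.mul_one]
    rw [e, kk_mul_apply, Finsupp.weight_single]
    apply kk_C_mem
    clear e
    induction n with
    | zero => rw [pow_zero, kk_one_apply, zero_smul, add_zero]; exact hy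
    | succ n ih =>
      rw [pow_succ', kk_mul_apply, succ_nsmul, ← add_assoc]
      exact kk_X_mem b M hY i ih

/-- homogeneous elements -/
theorem kk_mem (M : ModStr R Y) (hY : H395.PComplete p Y) {k m : ℤ} {f : KK p} {y : PiM Y}
    (hf : HK p m f) (hy : y ∈ PiM.gr Y k) : b.kk M hY f y ∈ PiM.gr Y (k + m) := by
  classical
  rw [← MvPolynomial.support_sum_monomial_coeff f, kk_sum_apply]
  refine AddSubgroup.sum_mem _ fun ν hν => ?_
  have h1 := kk_monomial_mem b M hY ν (coeff ν f) hy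
  rwa [hf (MvPolynomial.mem_support_iff.1 hν)] at h1

theorem unit_mem : b.unit ∈ PiM.gr P 0 := ⟨_, rfl⟩

/-- the class of a homogeneous element -/
theorem of_cls {k : ℤ} {f : KK p} (hf : HK p k f) :
    PiM.of P k (b.cls k f) = b.kk b.MP b.cP f b.unit := by
  have h1 := kk_mem b b.MP b.cP hf (unit_mem b)
  rw [zero_add] at h1
  obtain ⟨z, hz⟩ := h1
  have h2 : b.cls k f = z := by
    change (b.kk b.MP b.cP f b.unit) k = z
    rw [← hz]
    exact DirectSum.of_eq_same (β := fun k => ((𝟙_ 𝒯)⟦k⟧ ⟶ P)) k z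
  rw [h2, hz]

/-- `π_* P` is free on the unit -/
theorem kk_unit_inj {k : ℤ} {f g : KK p} (hf : HK p k f) (hg : HK p k g)
    (h : b.kk b.MP b.cP f b.unit = b.kk b.MP b.cP g b.unit) : f = g := by
  obtain ⟨f', -, h2⟩ := b.free k (b.cls k f)
  have h3 := h2 f ⟨hf, of_cls b hf⟩
  have h4 := h2 g ⟨hg, (of_cls b hf).trans h⟩
  rw [h3, h4]

theorem gc_w_til (M : ModStr R Y) (hY : H395.PComplete p Y) {m k k' : ℤ} (h : k + m = k')
    (z : (𝟙_ 𝒯)⟦m⟧ ⟶ R ⊗ R) (a : P⟦k⟧ ⟶ Y) :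
    gc h (z ≫ b.w) (b.til M hY a) = gc h z (ext M (b.c⟦k⟧' ≫ a)) := by
  rw [gc_map, b.w_til]

/-- the coordinates -/
theorem map_til_monomial (M : ModStr R Y) (hY : H395.PComplete p Y) {k : ℤ} (a : P⟦k⟧ ⟶ Y)
    (E : ℕ →₀ ℕ) : PiM.map (b.til M hY a) (b.ω (monomial E 1)) =
      PiM.of Y (k + dT p E) (gc rfl (b.τ E) (ext M (b.c⟦k⟧' ≫ a))) := by
  rw [b.ω_monomial, map_of rfl, gc_w_til]

/-- evaluation on the unit -/
theorem map_til_one (M : ModStr R Y) (hY : H395.PComplete p Y) {k : ℤ} (a : P⟦k⟧ ⟶ Y) :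
    PiM.map (b.til M hY a) (b.ω 1) = PiM.of Y k ((η[R] ≫ b.c)⟦k⟧' ≫ a) := by
  have e : (1 : GG p) = monomial 0 1 := rfl
  have h1 : PiM.of W (dT p 0) (b.τ 0 ≫ b.w) =
      PiM.of W 0 ((zr 𝒯 ≫ η[R] ≫ (λ_ R).inv ≫ (η[R] ▷ R)) ≫ b.w) := by
    rw [← map_zs b.w, ← map_zs b.w, b.τ_zero]
  rw [e, b.ω_monomial, h1, map_of (add_zero k), gc_w_til, gc_unit_shift]
  congr 1
  have h2 : ((λ_ R).inv)⟦k⟧' ≫ ((λ_ R).hom)⟦k⟧' ≫ (b.c)⟦k⟧' ≫ a = (b.c)⟦k⟧' ≫ a := by
    rw [← Functor.map_comp_assoc, Iso.inv_hom_id, CategoryTheory.Functor.map_id, Category.id_comp]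
  rw [Functor.map_comp_assoc, Functor.map_comp_assoc, ext_unit, h2, Functor.map_comp_assoc]

end b

end Vale.Agent.P221.T.H609
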