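import Vale.Agent.P221.T.H609.Compl

/-!
# P221, part T: the filtered system of the slope filtration (`SpecS`)
-/

open MvPolynomial

namespace Vale.Agent.P221.T.H609

noncomputable section

variable {p : ℕ} [Fact p.Prime] {n : ℕ} {ld : Lead p n} {S : Src p n} {O : OpAlg ld S} {Y : Sys S}
  {M : Type} [AddCommGroup M] [Module (KK p) M] {Mg : ℤ → AddSubgroup M} (co : Coor O Y M Mg)
  {r : ℕ} {e a : Fin r → ℤ} {y : Fin r → M}

/-! ### linear maps out of `GG p` -/

/-- the linear map with prescribed values on monomials -/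
def lin (g : (ℕ →₀ ℕ) → M) : GG p →ₗ[KK p] M := (basisMonomials ℕ (KK p)).constr (KK p) g

lemma lin_monomial (g : (ℕ →₀ ℕ) → M) (E : ℕ →₀ ℕ) : lin g (monomial E (1 : KK p)) = g E := by
  unfold lin
  have := (basisMonomials ℕ (KK p)).constr_basis (KK p) g E
  rwa [coe_basisMonomials] at this

/-- evaluation of a linear map on a product -/
lemma apply_mul (φ : GG p →ₗ[KK p] M) (g : GG p) (E : ℕ →₀ ℕ) :
    φ (g * monomial E 1) = ∑ E' ∈ g.support, coeff E' g • φ (monomial (E + E') 1) := by
  conv_lhs => rw [g.as_sum, Finset.sum_mul, map_sum]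
  refine Finset.sum_congr rfl fun E' _ => ?_
  rw [monomial_mul, mul_one, ← map_smul, smul_monomial, smul_eq_mul, mul_one, add_comm]

lemma apply_sum (φ : GG p →ₗ[KK p] M) (g : GG p) :
    φ g = ∑ E' ∈ g.support, coeff E' g • φ (monomial E' 1) := by
  have := apply_mul φ g 0
  rw [show (monomial (0 : ℕ →₀ ℕ) (1 : KK p) : GG p) = 1 from rfl, mul_one] at this
  simpa using this

lemma dT_add (E E' : ℕ →₀ ℕ) : dT p (E + E') = dT p E + dT p E' := by
  unfold dT; rw [map_add]

lemma dT_zero : dT p (0 : ℕ →₀ ℕ) = 0 := by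
  unfold dT; rw [map_zero]

/-! ### the filtration on `A k` -/

variable (n e a y) in
/-- the filtration of `A k` -/
def FA (s k : ℤ) : AddSubgroup (Y.A k) where
  carrier := {x | ∀ E, co.c k x (monomial E 1) ∈ FM (p := p) n e a y s (k + dT p E)}
  zero_mem' := by
    intro E
    rw [map_zero, LinearMap.zero_apply]
    exact AddSubgroup.zero_mem _
  add_mem' := by
    intro x x' h h' E
    rw [map_add, LinearMap.add_apply]
    exact AddSubgroup.add_mem _ (h E) (h' E)
  neg_mem' := by
    intro x h E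
    rw [map_neg, LinearMap.neg_apply]
    exact AddSubgroup.neg_mem _ (h E)

variable (ld e a y) in
/-- leading terms -/
def thA (s k : ℤ) (x : Y.A k) : Fnl (NM ld e a y) :=
  fun E => cl ld e a y s (k + dT p E) (co.c k x (monomial E 1))

lemma mem_FA {s k : ℤ} {x : Y.A k} : x ∈ FA n co e a y s k ↔
    ∀ E, co.c k x (monomial E 1) ∈ FM (p := p) n e a y s (k + dT p E) := Iff.rfl

include co in
lemma FM_le (hy : ∀ i, y i ∈ Mg (e i)) {s k : ℤ} {z : M}
    (hz : z ∈ FM (p := p) n e a y s k) : z ∈ Mg k := by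
  obtain ⟨f, hf⟩ := hz
  rw [hf.eq]
  refine AddSubgroup.sum_mem _ fun i _ => ?_
  have h1 := co.smul_mem (hf.hom i) (hy i)
  rwa [add_sub_cancel] at h1

/-- elements of `A k` with prescribed values -/
lemma exists_A {k : ℤ} (g : (ℕ →₀ ℕ) → M) (hg : ∀ E, g E ∈ Mg (k + dT p E)) :
    ∃ x : Y.A k, ∀ E, co.c k x (monomial E 1) = g E := by
  obtain ⟨x, hx⟩ := (co.range k (lin g)).2 (by
    intro E
    rw [lin_monomial]
    exact hg E)
  exact ⟨x, fun E => by rw [hx, lin_monomial]⟩

lemma ext_A {k : ℤ} {x x' : Y.A k}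
    (h : ∀ E, co.c k x (monomial E 1) = co.c k x' (monomial E 1)) : x = x' := by
  refine co.inj k ?_
  refine (basisMonomials ℕ (KK p)).ext fun E => ?_
  rw [coe_basisMonomials]
  exact h E

/-! ### the operators `x l` -/

/-- exponents of the main terms of `η_R(x_{n+1+l})` -/
def Dx (p n l : ℕ) (b : ℕ) : ℕ →₀ ℕ :=
  if b < n + 1 + l then Finsupp.single (n + l - b) (p ^ b) else 0

lemma tG_pow (l b : ℕ) (hb : b < n + 2 + l) :
    tG p (n + 1 + l - b) ^ p ^ b = monomial (Dx p n l b) (1 : KK p) := by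
  unfold Dx
  by_cases h : b < n + 1 + l
  · rw [if_pos h]
    obtain ⟨m, hm⟩ : ∃ m, n + 1 + l - b = m + 1 := ⟨n + l - b, by omega⟩
    have hm' : n + l - b = m := by omega
    rw [hm, hm']
    change (X m : GG p) ^ p ^ b = _
    rw [X_pow_eq_monomial]
  · rw [if_neg h]
    have h1 : n + 1 + l - b = 0 := by omega
    rw [h1]
    change (1 : GG p) ^ p ^ b = _
    rw [one_pow]
    rfl

lemma dT_Dx (l b : ℕ) (hb : b < n + 2 + l) : dT p (Dx p n l b) + sV p b = dd p n l := by
  unfold Dx dd
  by_cases h : b < n + 1 + l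
  · rw [if_pos h]
    unfold dT
    rw [Finsupp.weight_single]
    unfold sV
    rw [nsmul_eq_mul]
    have h1 : n + 1 + l = (n + l - b + 1) + b := by omega
    rw [h1, pow_add _ (n + l - b + 1) b]
    push_cast
    ring
  · rw [if_neg h, dT_zero, zero_add]
    congr 1
    omega

lemma vK_HK (b : ℕ) : HK p (sV p b) (vK p b) := by
  cases b with
  | zero =>
    have h1 : sV p 0 = 0 := by simp [sV]
    rw [h1]
    change HK p 0 ((p : KK p))
    have h2 : (p : KK p) = C (p : ℤ_[p]) := by simp
    rw [h2]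
    exact HK_C _
  | succ b => exact HK_X b

lemma vK_mem (b : ℕ) : vK p b ∈ Ip p 1 := by
  cases b with
  | zero =>
    change (p : KK p) ∈ _
    have h2 : (p : KK p) = C (p : ℤ_[p]) := by simp
    rw [h2]
    exact p_mem
  | succ b => exact X_mem b

/-- the main part of `η_R(x_{n+1+l})` -/
def om (p n : ℕ) [Fact p.Prime] (l : ℕ) : GG p := ∑ b ∈ Finset.range (n + 2 + l),
    C (vK p b) * tG p (n + 1 + l - b) ^ p ^ b

lemma om_eq (l : ℕ) : om p n l = ∑ b ∈ Finset.range (n + 2 + l), monomial (Dx p n l b) (vK p b) := by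
  unfold om
  refine Finset.sum_congr rfl fun b hb => ?_
  rw [Finset.mem_range] at hb
  rw [tG_pow l b hb, C_mul_monomial, mul_one]

lemma om_HK (l : ℕ) (E' : ℕ →₀ ℕ) : HK p (dd p n l - dT p E') (coeff E' (om p n l)) := by
  classical
  rw [om_eq, coeff_sum]
  refine (weightedHomogeneousSubmodule ℤ_[p] (fun i => sV p (i + 1)) _).sum_mem ?_
  intro b hb
  rw [Finset.mem_range] at hb
  rw [coeff_monomial]
  split_ifs with h
  · have h1 := dT_Dx (p := p) l b hb
    rw [← h]
    have h2 : dd p n l - dT p (Dx p n l b) = sV p b := by omega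
    rw [h2]
    exact vK_HK b
  · exact HK_zero _

lemma eta_HK (O : OpAlg ld S) (l : ℕ) (E' : ℕ →₀ ℕ) :
    HK p (dd p n l - dT p E') (coeff E' (O.η l)) := by
  have h1 := O.homog _ (S.x l) 0 E'
  rw [dT_zero, add_zero, O.T_x] at h1
  have h2 : (monomial (0 : ℕ →₀ ℕ) (1 : KK p) : GG p) = 1 := rfl
  rwa [h2, mul_one] at h1

variable (h2 : Two (p := p) n e a y)

include h2 in
/-- the value of `x_l^* x` modulo higher filtration -/
lemma x_formula (l : ℕ) {s k k' : ℤ} (h : k + dd p n l = k') {x : Y.A k}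
    (hx : x ∈ FA n co e a y s k) (E : ℕ →₀ ℕ) :
    co.c k' (Y.act h x (S.x l)) (monomial E 1) -
      ∑ b ∈ Finset.range (n + 2 + l), vK p b • co.c k x (monomial (E + Dx p n l b) 1) ∈
        FM (p := p) n e a y (s + 2) (k' + dT p E) := by
  have h1 : co.c k' (Y.act h x (S.x l)) (monomial E 1) =
      co.c k x (O.η l * monomial E 1) := by
    rw [co.act h x (S.x l)]
    change co.c k x (O.T _ (S.x l) (monomial E 1)) = _
    rw [O.T_x]
  have h3 : ∑ b ∈ Finset.range (n + 2 + l), vK p b • co.c k x (monomial (E + Dx p n l b) 1) =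
      co.c k x (om p n l * monomial E 1) := by
    rw [om_eq, Finset.sum_mul, map_sum]
    refine Finset.sum_congr rfl fun b _ => ?_
    rw [monomial_mul, mul_one, ← map_smul, smul_monomial, smul_eq_mul, mul_one, add_comm]
  rw [h1, h3, ← map_sub, ← sub_mul, apply_mul]
  refine AddSubgroup.sum_mem _ fun E' _ => ?_
  have h4 : HK p (dd p n l - dT p E') (coeff E' (O.η l - om p n l)) := by
    rw [coeff_sub]
    exact HK_sub (eta_HK O l E') (om_HK l E')
  have h5 : coeff E' (O.η l - om p n l) ∈ Ip p 2 := O.η_mem l E'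
  have h6 := (good_of ld h2 (by norm_num) h4 h5).mem (hx (E + E'))
  rw [dT_add] at h6
  have h7 : k + (dT p E + dT p E') + (dd p n l - dT p E') = k' + dT p E := by
    rw [← h]; ring
  rw [h7] at h6
  exact h6

include h2 in
lemma x_term (l b : ℕ) (hb : b < n + 2 + l) {s k k' : ℤ} (h : k + dd p n l = k') {x : Y.A k}
    (hx : x ∈ FA n co e a y s k) (E : ℕ →₀ ℕ) :
    vK p b • co.c k x (monomial (E + Dx p n l b) 1) ∈
        FM (p := p) n e a y (s + 1) (k' + dT p E) ∧
    cl ld e a y (s + 1) (k' + dT p E) (vK p b • co.c k x (monomial (E + Dx p n l b) 1)) =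
      ld.L 1 (vK p b) • thA ld co e a y s k x (E + Dx p n l b) := by
  have h1 := good_of ld h2 (by norm_num) (vK_HK (p := p) b) (vK_mem b)
  have h3 := dT_Dx (p := p) l b hb
  have h4 : k + dT p (E + Dx p n l b) + sV p b = k' + dT p E := by
    rw [dT_add, ← h, ← h3]; ring
  have h5 := h1.mem (hx (E + Dx p n l b))
  have h6 := h1.cl (hx (E + Dx p n l b))
  rw [h4] at h5 h6
  exact ⟨h5, h6⟩

include h2 in
lemma x_mem_FA (l : ℕ) {s k k' : ℤ} (h : k + dd p n l = k') {x : Y.A k}
    (hx : x ∈ FA n co e a y s k) : Y.act h x (S.x l) ∈ FA n co e a y (s + 1) k' := by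
  intro E
  have h1 := FM_mono (by omega : s + 1 ≤ s + 2) (x_formula co h2 l h hx E)
  have h3 : ∑ b ∈ Finset.range (n + 2 + l), vK p b • co.c k x (monomial (E + Dx p n l b) 1) ∈
      FM (p := p) n e a y (s + 1) (k' + dT p E) :=
    AddSubgroup.sum_mem _ fun b hb => (x_term co h2 l b (by simpa using hb) h hx E).1
  have h4 := AddSubgroup.add_mem _ h1 h3
  rwa [sub_add_cancel] at h4

lemma Lv_lt (b : Fin (n + 1)) : ld.L 1 (vK p b) = X b := by
  refine Fin.cases ?_ (fun i => ?_) b
  · exact ld.p_eq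
  · exact ld.v_lt i i.2

lemma Lv_ge {b : ℕ} (hb : n + 1 ≤ b) : ld.L 1 (vK p b) = 0 := by
  obtain ⟨c, rfl⟩ : ∃ c, b = c + 1 := ⟨b - 1, by omega⟩
  exact ld.v_ge c (by omega)

include h2 in
lemma th_x (l : ℕ) {s k k' : ℤ} (h : k + dd p n l = k') {x : Y.A k}
    (hx : x ∈ FA n co e a y s k) :
    thA ld co e a y (s + 1) k' (Y.act h x (S.x l)) = DD p n l (thA ld co e a y s k x) := by
  funext E
  have h1 := x_formula co h2 l h hx E
  have h1' := FM_mono (by omega : s + 1 ≤ s + 2) h1
  have h3 : ∀ b ∈ Finset.range (n + 2 + l),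
      vK p b • co.c k x (monomial (E + Dx p n l b) 1) ∈
      FM (p := p) n e a y (s + 1) (k' + dT p E) :=
    fun b hb => (x_term co h2 l b (by simpa using hb) h hx E).1
  have h4 : thA ld co e a y (s + 1) k' (Y.act h x (S.x l)) E =
      cl ld e a y (s + 1) (k' + dT p E) ((co.c k' (Y.act h x (S.x l)) (monomial E 1) -
      ∑ b ∈ Finset.range (n + 2 + l), vK p b • co.c k x (monomial (E + Dx p n l b) 1)) +
      ∑ b ∈ Finset.range (n + 2 + l), vK p b • co.c k x (monomial (E + Dx p n l b) 1)) := by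
    rw [sub_add_cancel]
    rfl
  have h1'' : co.c k' (Y.act h x (S.x l)) (monomial E 1) -
      ∑ b ∈ Finset.range (n + 2 + l), vK p b • co.c k x (monomial (E + Dx p n l b) 1) ∈
        FM (p := p) n e a y (s + 1 + 1) (k' + dT p E) := by
    rw [show s + 1 + 1 = s + 2 by ring]
    exact h1
  rw [h4, cl_add ld h1' (AddSubgroup.sum_mem _ h3), cl_succ ld h1'', zero_add, cl_sum ld _ _ h3]
  rw [Finset.sum_congr rfl fun b hb => (x_term co h2 l b (by simpa using hb) h hx E).2]
  have h5 : n + 2 + l = (n + 1) + (l + 1) := by ring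
  rw [h5, Finset.sum_range_add, Finset.sum_eq_zero (s := Finset.range (l + 1)) (fun b _ => by
    rw [Lv_ge (by omega), zero_smul]), add_zero, Finset.sum_range]
  unfold DD
  refine Finset.sum_congr rfl fun b _ => ?_
  rw [Lv_lt]
  unfold Dx
  rw [if_pos (by have := b.2; omega)]

/-! ### general operations -/

include h2 in
lemma act_term {s k t m k' : ℤ} (h : k + m = k') {x : Y.A k} {γ : S.E m}
    (hx : x ∈ FA n co e a y s k) (ht : 0 ≤ t) (hγ : γ ∈ S.F t m) (E E' : ℕ →₀ ℕ) :
    coeff E' (O.T m γ (monomial E 1)) • co.c k x (monomial E' 1) ∈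
      FM (p := p) n e a y (s + t) (k' + dT p E) ∧
    cl ld e a y (s + t) (k' + dT p E)
      (coeff E' (O.T m γ (monomial E 1)) • co.c k x (monomial E' 1)) =
      ld.L t (coeff E' (O.T m γ (monomial E 1))) • thA ld co e a y s k x E' := by
  have h1 := good_of ld h2 ht (O.homog m γ E E') (O.T_mem t m γ hγ E E')
  have h4 : k + dT p E' + (m + dT p E - dT p E') = k' + dT p E := by
    rw [← h]; ring
  have h5 := h1.mem (hx E')
  have h6 := h1.cl (hx E')
  rw [h4] at h5 h6
  exact ⟨h5, h6⟩

lemma act_eval {k m k' : ℤ} (h : k + m = k') (x : Y.A k) (γ : S.E m) (E : ℕ →₀ ℕ) :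
    co.c k' (Y.act h x γ) (monomial E 1) = ∑ E' ∈ (O.T m γ (monomial E 1)).support,
      coeff E' (O.T m γ (monomial E 1)) • co.c k x (monomial E' 1) := by
  rw [co.act h x γ]
  exact apply_sum (co.c k x) (O.T m γ (monomial E 1))

include h2 in
lemma act_mem_FA {s k t m k' : ℤ} (h : k + m = k') {x : Y.A k} {γ : S.E m}
    (hx : x ∈ FA n co e a y s k) (hγ : γ ∈ S.F t m) : Y.act h x γ ∈ FA n co e a y (s + t) k' := by
  intro E
  rw [act_eval]
  refine AddSubgroup.sum_mem _ fun E' _ => ?_
  by_cases ht : 0 ≤ t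
  · exact (act_term co h2 h hx ht hγ E E').1
  · have hγ' : γ ∈ S.F 0 m := by
      rw [O.F_iff]
      intro E E'
      exact Ip_nonpos le_rfl _
    have h1 := (act_term co h2 h hx le_rfl hγ' E E').1
    exact FM_mono (by omega) h1

include h2 in
lemma th_act {s k t m k' : ℤ} (h : k + m = k') {x : Y.A k} {γ : S.E m} {y' : NM ld e a y}
    (hx : x ∈ FA n co e a y s k) (hth : thA ld co e a y s k x = Pi.single 0 y')
    (hγ : γ ∈ S.F t m) :
    thA ld co e a y (s + t) k' (Y.act h x γ) = fun E => S.θ t m γ E • y' := by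
  classical
  funext E
  rw [O.θ_eq t m γ E hγ]
  by_cases ht : 0 ≤ t
  · unfold thA
    rw [act_eval, cl_sum ld _ _ fun E' _ => (act_term co h2 h hx ht hγ E E').1,
      Finset.sum_congr rfl fun E' _ => (act_term co h2 h hx ht hγ E E').2, hth]
    by_cases h0 : (0 : ℕ →₀ ℕ) ∈ (O.T m γ (monomial E 1)).support
    · rw [Finset.sum_eq_single_of_mem 0 h0]
      · rw [Pi.single_eq_same]
      · intro E' _ hE'
        rw [Pi.single_eq_of_ne hE', smul_zero]
    · rw [Finset.sum_eq_zero]
      · rw [notMem_support_iff] at h0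
        rw [h0, L_zero' ld (Ideal.zero_mem _), zero_smul]
      · intro E' hE'
        have : E' ≠ 0 := by
          rintro rfl; exact h0 hE'
        rw [Pi.single_eq_of_ne this, smul_zero]
  · rw [ld.neg _ (by omega), zero_smul]
    have hγ' : γ ∈ S.F 0 m := by
      rw [O.F_iff]
      intro E E'
      exact Ip_nonpos le_rfl _
    have h1 := act_mem_FA co h2 h hx hγ' E
    refine cl_succ ld ?_
    exact FM_mono (by omega) h1

/-! ### the filtered system -/

variable (p) in
lemma C_nsmul (z : M) : p • z = (rn p n (vn (0 : Fin (n + 1)))) • z := by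
  unfold vn
  simp only [Fin.cases_zero]
  rw [rn, rename_C]
  have h1 : (C (p : ℤ_[p]) : KK p) = (p : KK p) := by simp
  rw [h1, Nat.cast_smul_eq_nsmul]

/-- the filtered system -/
def fsA (hy : ∀ i, y i ∈ Mg (e i))
    (hgen : ∀ k, ∀ z ∈ Mg k, ∃ f : Fin r → MvPolynomial (Fin n) ℤ_[p],
      (∀ i, HK p (k - e i) (rn p n (f i))) ∧ z = ∑ i, rn p n (f i) • y i)
    (d : ℤ) : FS Y (gM ld e a y) d where
  F s k := FA n co e a y s k
  mono h := fun x hx E => FM_mono h (hx E)
  exh := by
    intro k _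
    obtain ⟨s, hs⟩ : ∃ s : ℤ, ∀ i, s ≤ a i := by
      obtain ⟨s, hs⟩ := (Set.finite_range a).bddBelow
      exact ⟨s, fun i => hs ⟨i, rfl⟩⟩
    refine ⟨s, ?_⟩
    rw [eq_top_iff]
    intro x _ E
    obtain ⟨f, hf, e1⟩ := hgen _ _ ((co.range k (co.c k x)).1 ⟨x, rfl⟩ E)
    exact ⟨f, hf, fun i => Ip_nonpos (by have := hs i; omega) _, e1⟩
  sep := by
    intro k _ x hx
    refine ext_A co fun E => ?_
    rw [map_zero, LinearMap.zero_apply]
    exact FM_sep fun s => hx s E
  cpl := by
    intro k _ s x hx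
    have h1 : ∀ E, ∃ Z : M, ∀ m : ℕ, Z - ∑ i ∈ Finset.range m, co.c k (x i) (monomial E 1) ∈
        FM (p := p) n e a y (s + m) (k + dT p E) :=
      fun E => FM_cpl (fun i => co.c k (x i) (monomial E 1)) fun i => hx i E
    choose Z hZ using h1
    obtain ⟨b, hb⟩ := exists_A co Z (fun E => by
      have h3 := FM_le co hy (hZ E 0)
      rwa [Finset.range_zero, Finset.sum_empty, sub_zero] at h3)
    refine ⟨b, fun m E => ?_⟩
    rw [map_sub, map_sum, LinearMap.sub_apply, LinearMap.sum_apply, hb]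
    exact hZ E m
  p_mem := by
    intro s k x hx E
    rw [map_nsmul, LinearMap.smul_apply, C_nsmul (n := n) p]
    have h1 := (good_rn (e := e) (a := a) (y := y) ld (by norm_num : (0 : ℤ) ≤ 1)
      (vn_HK (p := p) (0 : Fin (n + 1))) (vn_mem _)).mem (hx E)
    have h3 : sV p ((0 : Fin (n + 1)) : ℕ) = 0 := by simp [sV]
    rwa [h3, add_zero] at h1
  θ s k x := thA ld co e a y s k x
  θ_add := by
    intro s k x x' _ hx hx'
    funext E
    unfold thA
    rw [map_add, LinearMap.add_apply, Pi.add_apply]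
    exact cl_add ld (hx E) (hx' E)
  θ_mem := by
    intro s k x _ _ E
    exact cl_mem ld _ _ _
  θ_surj := by
    intro s k ζ _ hζ
    have h1 := fun E => cl_surj ld (hζ E)
    choose z hz hz' using h1
    obtain ⟨x, hx⟩ := exists_A co z (fun E => FM_le co hy (hz E))
    refine ⟨x, fun E => by rw [hx]; exact hz E, ?_⟩
    funext E
    unfold thA
    rw [hx]
    exact hz' E
  θ_ker := by
    intro s k x _ hx
    constructor
    · intro h E
      exact (cl_eq_zero_iff ld (hx E)).1 (congrFun h E)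
    · intro h
      funext E
      exact cl_succ ld (h E)
  x_mem := by
    intro l s k k' h x _ hx
    exact x_mem_FA co h2 l h hx
  θ_x := by
    intro l s k k' h x _ hx
    exact th_x co h2 l h hx
  act_mem := by
    intro s k t m k' h x γ y' _ _ hx _ hγ
    exact act_mem_FA co h2 h hx hγ
  θ_act := by
    intro s k t m k' h x γ y' _ _ hx hth hγ
    exact th_act co h2 h hx hth hγ
  ev_surj := by
    intro k _ x
    classical
    obtain ⟨b, hb⟩ := exists_A co (k := k) (fun E => if E = 0 then co.e k x else 0) (by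
      intro E
      split_ifs with h
      · rw [h, dT_zero, add_zero]
        exact (co.e_range k _).1 ⟨x, rfl⟩
      · exact AddSubgroup.zero_mem _)
    refine ⟨b, co.e_inj k ?_⟩
    rw [co.ev]
    have := hb 0
    rw [if_pos rfl] at this
    exact this
  ev_lift := by
    intro s k x _ hx hθ
    classical
    have h1 : co.c k x (monomial 0 1) ∈ FM (p := p) n e a y (s + 1) (k + dT p 0) :=
      (cl_eq_zero_iff ld (hx 0)).1 hθ
    obtain ⟨b, hb⟩ := exists_A co (k := k)
      (fun E => if E = 0 then co.c k x (monomial 0 1) else 0) (by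
      intro E
      split_ifs with h
      · rw [h]
        exact FM_le co hy h1
      · exact AddSubgroup.zero_mem _)
    refine ⟨b, fun E => ?_, co.e_inj k ?_⟩
    · rw [hb]
      split_ifs with h
      · rw [h]; exact h1
      · exact AddSubgroup.zero_mem _
    · rw [co.ev, co.ev]
      have := hb 0
      rw [if_pos rfl] at this
      exact this
  ev_zero := by
    intro s k x _ hx h
    have h1 := co.ev k x
    rw [h, map_zero] at h1
    change cl ld e a y s (k + dT p 0) (co.c k x 1) = 0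
    rw [← h1, cl_zero]
  ev_sep := by
    intro k _ x hx
    refine co.e_inj k ?_
    rw [map_zero]
    refine FM_sep (p := p) (n := n) (e := e) (a := a) (y := y) (k := k) fun s => ?_
    obtain ⟨b, hb, hb'⟩ := hx s
    rw [← hb', co.ev]
    have h1 := hb 0
    rwa [dT_zero, add_zero] at h1

end

/-- **(T-S)** -/
theorem specS (p n : ℕ) [Fact p.Prime] : SpecS p n := by
  intro ld S O Y M _ _ Mg co ⟨r, e, y, hy, hgen⟩
  obtain ⟨a, ha⟩ := exists_slope p n e
  have h2 : Two (p := p) n e a y := by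
    intro i hi s k z hz
    obtain ⟨f, hf⟩ := hz
    have h1 : ∀ j, ∃ h : Fin r → MvPolynomial (Fin n) ℤ_[p],
        (∀ j', HK p (e j + sV p (i + 1) - e j') (rn p n (h j'))) ∧
          (X i : KK p) • y j = ∑ j', rn p n (h j') • y j' :=
      fun j => hgen _ _ (co.smul_mem (HK_X i) (hy j))
    choose h hh hh' using h1
    refine ⟨fun j' => ∑ j, f j * h j j', ?_, ?_, ?_⟩
    · intro j'
      rw [map_sum]
      refine (weightedHomogeneousSubmodule ℤ_[p] (fun i => sV p (i + 1)) _).sum_mem fun j _ => ?_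
      rw [map_mul]
      have h3 := HK_mul (hf.hom j) (hh j j')
      have h4 : k - e j + (e j + sV p (i + 1) - e j') = k + sV p (i + 1) - e j' := by ring
      rw [h4] at h3
      exact h3
    · intro j'
      rw [map_sum]
      refine Ideal.sum_mem _ fun j _ => ?_
      rw [map_mul]
      have h3 := Ip_mul (hf.mem j) (ha j j' i hi (h j j') (hh j j'))
      have h4 : s - a j + (2 + a j - a j') = s + 2 - a j' := by ring
      rw [h4] at h3
      exact h3
    · rw [hf.eq, Finset.smul_sum]
      have h3 : ∀ j, (X i : KK p) • rn p n (f j) • y j = ∑ j', rn p n (f j * h j j') • y j' := by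
        intro j
        rw [smul_comm, hh' j, Finset.smul_sum]
        refine Finset.sum_congr rfl fun j' _ => ?_
        rw [map_mul, mul_smul]
      rw [Finset.sum_congr rfl fun j _ => h3 j, Finset.sum_comm]
      refine Finset.sum_congr rfl fun j' _ => ?_
      rw [map_sum, Finset.sum_smul]
  refine ⟨NM ld e a y, inferInstance, inferInstance, gM ld e a y, ?_, ?_, ?_⟩
  · intro b k s z hz
    obtain ⟨g, hg, rfl⟩ := hz
    refine ⟨(X b : RR p n) • g, ?_, ?_⟩
    · intro i
      have h1 := hg i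
      refine ⟨?_, ?_⟩
      · have h3 : IsWeightedHomogeneous (fun a : Fin (n + 1) => sV p a) (X b * g i)
            (sV p b + (k - e i)) :=
          (isWeightedHomogeneous_X _ _ b).mul h1.1
        have h4 : sV p b + (k - e i) = k + sV p b - e i := by ring
        rw [h4] at h3
        exact h3
      · have h3 : IsWeightedHomogeneous (fun _ : Fin (n + 1) => (1 : ℤ)) (X b * g i)
            (1 + (s - a i)) :=
          (isWeightedHomogeneous_X _ _ b).mul h1.2
        have h4 : 1 + (s - a i) = s + 1 - a i := by ring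
        rw [h4] at h3
        exact h3
    · exact map_smul (KR ld e a y).mkQ (X b : RR p n) g
  · refine ⟨r, e, a, (KR ld e a y).mkQ, ?_, ?_⟩
    · intro k s x hx
      exact ⟨x, hx, rfl⟩
    · rintro k s z ⟨x, hx, rfl⟩
      exact ⟨x, hx, rfl⟩
  · intro d
    exact ⟨fsA co h2 hy hgen d⟩

end Vale.Agent.P221.T.H609
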