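import Vale.Agent.P221.T.H609.Gr
import Mathlib.RingTheory.Filtration

/-!
# P221, part T: the slope filtration is complete
-/

open MvPolynomial

namespace Vale.Agent.P221.T.H609

section

variable {p : ℕ} [Fact p.Prime] {n : ℕ} {M : Type} [AddCommGroup M]
  [Module (KK p) M] {r : ℕ} {e a : Fin r → ℤ} {y : Fin r → M}

variable (n e a y) in
lemma FM_div (k : ℤ) (N : ℕ) : ∃ s : ℤ, ∀ z ∈ FM (p := p) n e a y s k,
    ∃ f' : Fin r → MvPolynomial (Fin n) ℤ_[p], (∀ i, HK p (k - e i) (rn p n (f' i))) ∧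
      z = (C ((p : ℤ_[p]) ^ N) : KK p) • ∑ i, rn p n (f' i) • y i := by
  obtain ⟨s, hs⟩ : ∃ s : ℤ, ∀ i, a i + N + ((k - e i).toNat : ℤ) ≤ s := by
    obtain ⟨s, hs⟩ := (Set.finite_range (fun i => a i + N + ((k - e i).toNat : ℤ))).bddAbove
    exact ⟨s, fun i => hs ⟨i, rfl⟩⟩
  refine ⟨s, ?_⟩
  rintro z ⟨f, hf⟩
  have h1 : ∀ i, ∃ g : MvPolynomial (Fin n) ℤ_[p], f i = C ((p : ℤ_[p]) ^ N) * g := by
    intro i
    change C ((p : ℤ_[p]) ^ N) ∣ f i
    rw [C_dvd_iff_dvd_coeff]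
    intro μ
    by_cases h0 : (f i).coeff μ = 0
    · rw [h0]; exact dvd_zero _
    · have h2 := HK_rn.1 (hf.hom i) μ h0
      have h3 := degree_le (p := p) μ
      have h4 := hs i
      exact dvd_trans (pow_dvd_pow _ (by omega)) (Ip_rn.1 (hf.mem i) μ)
  choose g hg using h1
  refine ⟨g, ?_, ?_⟩
  · intro i
    rw [HK_rn]
    intro μ hμ
    refine HK_rn.1 (hf.hom i) μ ?_
    rw [hg i, coeff_C_mul]
    refine mul_ne_zero (pow_ne_zero _ ?_) hμ
    exact_mod_cast (Fact.out : p.Prime).ne_zero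
  · rw [hf.eq, Finset.smul_sum]
    refine Finset.sum_congr rfl fun i _ => ?_
    rw [hg i, map_mul, mul_smul, rn, rename_C]

lemma FM_sep {k : ℤ} {z : M} (hz : ∀ s : ℤ, z ∈ FM (p := p) n e a y s k) : z = 0 := by
  classical
  letI : Module ℤ_[p] M := Module.compHom M (C : ℤ_[p] →+* KK p)
  have hsm : ∀ (c : ℤ_[p]) (x : M), c • x = (C c : KK p) • x := fun _ _ => rfl
  let G : Set M := ⋃ i : Fin r, (fun μ => (rn p n (monomial μ (1 : ℤ_[p]))) • y i) ''
    {μ : Fin n →₀ ℕ | wF p μ = k - e i}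
  have hG : G.Finite := Set.finite_iUnion fun i => (finite_wF _).image _
  let M' : Submodule ℤ_[p] M := Submodule.span ℤ_[p] G
  haveI : Module.Finite ℤ_[p] M' := Module.Finite.span_of_finite _ hG
  have hmem : ∀ f : Fin r → MvPolynomial (Fin n) ℤ_[p], (∀ i, HK p (k - e i) (rn p n (f i))) →
      ∑ i, rn p n (f i) • y i ∈ M' := by
    intro f hf
    refine Submodule.sum_mem _ fun i _ => ?_
    rw [(f i).as_sum, map_sum, Finset.sum_smul]
    refine Submodule.sum_mem _ fun μ hμ => ?_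
    have h1 : monomial μ ((f i).coeff μ) = C ((f i).coeff μ) * monomial μ (1 : ℤ_[p]) := by
      rw [C_mul_monomial, mul_one]
    rw [h1, map_mul, rn, rename_C, mul_smul, ← hsm]
    refine Submodule.smul_mem _ _ (Submodule.subset_span ?_)
    refine Set.mem_iUnion.2 ⟨i, μ, ?_, rfl⟩
    rw [mem_support_iff] at hμ
    exact HK_rn.1 (hf i) μ hμ
  have key : ∀ N : ℕ, ∃ z' ∈ M', z = (p : ℤ_[p]) ^ N • z' := by
    intro N
    obtain ⟨s, hs⟩ := FM_div (p := p) n e a y k N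
    obtain ⟨f', hf', e1⟩ := hs z (hz s)
    exact ⟨_, hmem f' hf', e1⟩
  have hzM : z ∈ M' := by
    obtain ⟨z', hz', e1⟩ := key 0
    rw [e1]
    exact Submodule.smul_mem _ _ hz'
  have hI : IsLocalRing.maximalIdeal ℤ_[p] ≠ ⊤ := Ideal.IsPrime.ne_top'
  have hK := Ideal.iInf_pow_smul_eq_bot_of_isLocalRing (M := M')
    (IsLocalRing.maximalIdeal ℤ_[p]) hI
  have h2 : (⟨z, hzM⟩ : M') ∈ (⨅ i : ℕ, (IsLocalRing.maximalIdeal ℤ_[p]) ^ i •
      (⊤ : Submodule ℤ_[p] M')) := by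
    rw [Submodule.mem_iInf]
    intro N
    obtain ⟨z', hz', e1⟩ := key N
    have h3 : (⟨z, hzM⟩ : M') = (p : ℤ_[p]) ^ N • (⟨z', hz'⟩ : M') := Subtype.ext e1
    rw [h3]
    refine Submodule.smul_mem_smul ?_ trivial
    refine Ideal.pow_mem_pow ?_ _
    rw [PadicInt.maximalIdeal_eq_span_p]
    exact Ideal.mem_span_singleton_self _
  rw [hK, Submodule.mem_bot] at h2
  exact congrArg Subtype.val h2

lemma FM_cpl {k s : ℤ} (z : ℕ → M) (hz : ∀ i : ℕ, z i ∈ FM (p := p) n e a y (s + i) k) :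
    ∃ Z : M, ∀ m : ℕ, Z - ∑ i ∈ Finset.range m, z i ∈ FM (p := p) n e a y (s + m) k := by
  choose f hf using hz
  have h1 : ∀ j, ∃ G : MvPolynomial (Fin n) ℤ_[p], HK p (k - e j) (rn p n G) ∧
      ∀ m : ℕ, rn p n (G - ∑ i ∈ Finset.range m, f i j) ∈ Ip p (s - a j + m) := by
    intro j
    refine polySeries _ _ (fun i => f i j) (fun i => (hf i).hom j) (fun i => ?_)
    have := (hf i).mem j
    have h2 : s - a j + i = s + i - a j := by ring
    rw [h2]
    exact this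
  choose G hG hG' using h1
  refine ⟨∑ j, rn p n (G j) • y j, fun m => ?_⟩
  refine ⟨fun j => G j - ∑ i ∈ Finset.range m, f i j, ?_, ?_, ?_⟩
  · intro j
    rw [map_sub, map_sum]
    refine HK_sub (hG j) ?_
    exact (weightedHomogeneousSubmodule ℤ_[p] (fun i => sV p (i + 1)) _).sum_mem
      fun i _ => (hf i).hom j
  · intro j
    have h2 : s + m - a j = s - a j + m := by ring
    rw [h2]
    exact hG' j m
  · have h3 : ∀ i, z i = ∑ j, rn p n (f i j) • y j := fun i => (hf i).eq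
    rw [Finset.sum_congr rfl fun i _ => h3 i, Finset.sum_comm, ← Finset.sum_sub_distrib]
    refine Finset.sum_congr rfl fun j _ => ?_
    rw [map_sub, map_sum, sub_smul, Finset.sum_smul]

end

end Vale.Agent.P221.T.H609
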