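import Vale.Agent.P221.T.H609.Ideal
import Mathlib.NumberTheory.Padics.PadicIntegers
import Mathlib.Data.Finsupp.Interval
import Mathlib.Algebra.MvPolynomial.CommRing

/-!
# P221, part T: polynomials in `v_1, …, v_n`, coefficientwise conditions, convergent series
-/

open MvPolynomial

namespace Vale.Agent.P221.T.H609

section

variable {p : ℕ} [Fact p.Prime] {n : ℕ}

variable (p n) in
/-- `ℤ_p[v_1, …, v_n] ⟶ ℤ_p[v_1, v_2, …]` -/
noncomputable abbrev rn : MvPolynomial (Fin n) ℤ_[p] →ₐ[ℤ_[p]] KK p :=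
  rename (fun i : Fin n => (i : ℕ))

/-- the weight of an exponent -/
noncomputable def wF (p : ℕ) (μ : Fin n →₀ ℕ) : ℤ :=
  Finsupp.weight (fun i : Fin n => sV p (i + 1)) μ

omit [Fact p.Prime] in
lemma weight_mapDomain (μ : Fin n →₀ ℕ) :
    Finsupp.weight (fun i : ℕ => sV p (i + 1)) (μ.mapDomain (fun i : Fin n => (i : ℕ))) =
      wF p μ := by
  unfold wF
  induction μ using Finsupp.induction_linear with
  | zero => simp
  | add f g hf hg => rw [Finsupp.mapDomain_add, map_add, map_add, hf, hg]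
  | single a b => rw [Finsupp.mapDomain_single, Finsupp.weight_single, Finsupp.weight_single]

lemma rn_coeff (g : MvPolynomial (Fin n) ℤ_[p]) (μ : Fin n →₀ ℕ) :
    (rn p n g).coeff (μ.mapDomain (fun i : Fin n => (i : ℕ))) = g.coeff μ :=
  coeff_rename_mapDomain _ Fin.val_injective _ _

lemma HK_rn {D : ℤ} {g : MvPolynomial (Fin n) ℤ_[p]} :
    HK p D (rn p n g) ↔ ∀ μ, g.coeff μ ≠ 0 → wF p μ = D := by
  constructor
  · intro h μ hμ
    rw [← rn_coeff] at hμ
    have := h hμ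
    rwa [weight_mapDomain] at this
  · intro h ν hν
    obtain ⟨μ, rfl, hμ⟩ := coeff_rename_ne_zero _ _ _ hν
    rw [weight_mapDomain]
    exact h μ hμ

lemma Ip_rn {t : ℤ} {g : MvPolynomial (Fin n) ℤ_[p]} :
    rn p n g ∈ Ip p t ↔ ∀ μ, (p : ℤ_[p]) ^ (t.toNat - μ.degree) ∣ g.coeff μ := by
  unfold Ip
  rw [mem_pow_iff]
  constructor
  · intro h μ
    have := h (μ.mapDomain (fun i : Fin n => (i : ℕ)))
    rwa [rn_coeff, Finsupp.degree_mapDomain] at this
  · intro h ν
    by_cases hν : (rn p n g).coeff ν = 0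
    · rw [hν]; exact dvd_zero _
    · obtain ⟨μ, rfl, hμ⟩ := coeff_rename_ne_zero _ _ _ hν
      rw [rn_coeff, Finsupp.degree_mapDomain]
      exact h μ

lemma sV_pos (i : ℕ) : 2 ≤ sV p (i + 1) := by
  unfold sV
  have h1 : (p : ℤ) ≤ p ^ (i + 1) := by
    exact_mod_cast Nat.le_self_pow (Nat.succ_ne_zero i) p
  have h2 : (2 : ℤ) ≤ p := by exact_mod_cast (Fact.out : p.Prime).two_le
  omega

lemma degree_le (μ : Fin n →₀ ℕ) : (μ.degree : ℤ) ≤ wF p μ := by
  unfold wF
  induction μ using Finsupp.induction_linear with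
  | zero => simp
  | add f g hf hg => rw [map_add, map_add]; push_cast; linarith
  | single a b =>
    rw [Finsupp.weight_single, Finsupp.degree_single, nsmul_eq_mul]
    have := sV_pos (p := p) a
    nlinarith [(by positivity : (0 : ℤ) ≤ (b : ℤ))]

lemma finite_wF (D : ℤ) : {μ : Fin n →₀ ℕ | wF p μ = D}.Finite := by
  refine Set.Finite.subset (Finsupp.finite_of_degree_le (σ := Fin n) D.toNat) ?_
  intro μ hμ
  rw [Set.mem_ofPred_eq] at *
  have := degree_le (p := p) μ
  omega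

/-- convergent series of `p`-adic integers -/
lemma series (a : ℤ) (c : ℕ → ℤ_[p]) (h : ∀ i : ℕ, (p : ℤ_[p]) ^ ((i + a).toNat) ∣ c i) :
    ∃ S : ℤ_[p], ∀ m : ℕ, (p : ℤ_[p]) ^ ((m + a).toNat) ∣ S - ∑ i ∈ Finset.range m, c i := by
  have hm : IsLocalRing.maximalIdeal ℤ_[p] = Ideal.span {(p : ℤ_[p])} :=
    PadicInt.maximalIdeal_eq_span_p
  have key : ∀ m m' : ℕ, m ≤ m' → (p : ℤ_[p]) ^ ((m + a).toNat) ∣
      ∑ i ∈ Finset.range m', c i - ∑ i ∈ Finset.range m, c i := by
    intro m m' hmm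
    rw [← Finset.sum_sdiff_eq_sub (Finset.range_mono hmm)]
    refine Finset.dvd_sum fun i hi => ?_
    rw [Finset.mem_sdiff, Finset.mem_range, Finset.mem_range] at hi
    exact dvd_trans (pow_dvd_pow _ (by omega)) (h i)
  have hprec := (inferInstance : IsAdicComplete (IsLocalRing.maximalIdeal ℤ_[p]) ℤ_[p]).prec'
    (fun j => ∑ i ∈ Finset.range (((j : ℤ) - a).toNat), c i) (by
      intro j j' hjj
      rw [SModEq.sub_mem, smul_eq_mul, Ideal.mul_top, hm, Ideal.span_singleton_pow,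
        Ideal.mem_span_singleton]
      have h1 := key (((j : ℤ) - a).toNat) (((j' : ℤ) - a).toNat) (by omega)
      rw [← neg_sub, dvd_neg]
      exact dvd_trans (pow_dvd_pow _ (by omega)) h1)
  obtain ⟨S, hS⟩ := hprec
  refine ⟨S, fun m => ?_⟩
  by_cases hma : (m : ℤ) + a ≤ 0
  · rw [Int.toNat_of_nonpos hma, pow_zero]
    exact one_dvd _
  · have h1 := hS ((m + a).toNat)
    rw [SModEq.sub_mem, smul_eq_mul, Ideal.mul_top, hm, Ideal.span_singleton_pow,
      Ideal.mem_span_singleton] at h1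
    have h2 : ((((m + a).toNat : ℕ) : ℤ) - a).toNat = m := by omega
    rw [h2] at h1
    rw [← neg_sub, dvd_neg]
    exact h1

/-- convergent series of homogeneous polynomials -/
lemma polySeries (D t : ℤ) (g : ℕ → MvPolynomial (Fin n) ℤ_[p])
    (hD : ∀ i, HK p D (rn p n (g i))) (ht : ∀ i : ℕ, rn p n (g i) ∈ Ip p (t + i)) :
    ∃ G : MvPolynomial (Fin n) ℤ_[p], HK p D (rn p n G) ∧
      ∀ m : ℕ, rn p n (G - ∑ i ∈ Finset.range m, g i) ∈ Ip p (t + m) := by
  classical
  have h1 : ∀ μ : Fin n →₀ ℕ, ∃ S : ℤ_[p], ∀ m : ℕ,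
      (p : ℤ_[p]) ^ ((m + (t - μ.degree)).toNat) ∣ S - ∑ i ∈ Finset.range m, (g i).coeff μ := by
    intro μ
    refine series _ _ ?_
    intro i
    exact dvd_trans (pow_dvd_pow _ (by omega)) (Ip_rn.1 (ht i) μ)
  choose S hS using h1
  refine ⟨∑ μ ∈ (finite_wF (p := p) (n := n) D).toFinset, monomial μ (S μ), ?_, ?_⟩
  · rw [HK_rn]
    intro μ hμ
    by_contra h
    apply hμ
    rw [coeff_sum]
    simp only [coeff_monomial]
    rw [Finset.sum_ite_eq' _ μ (fun x => S x), if_neg]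
    rw [Set.Finite.mem_toFinset]
    exact h
  · intro m
    rw [Ip_rn]
    intro μ
    rw [coeff_sub, coeff_sum, coeff_sum]
    simp only [coeff_monomial]
    rw [Finset.sum_ite_eq' _ μ (fun x => S x)]
    split_ifs with h
    · exact dvd_trans (pow_dvd_pow _ (by omega)) (hS μ m)
    · have h2 : ∀ i, (g i).coeff μ = 0 := by
        intro i
        by_contra h3
        apply h
        rw [Set.Finite.mem_toFinset]
        exact HK_rn.1 (hD i) μ h3
      rw [Finset.sum_eq_zero (fun i _ => h2 i), sub_zero]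
      exact dvd_zero _

end

end Vale.Agent.P221.T.H609
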