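import Vale.Agent.P221.T.H609.Rel

/-!
# P221, part T: the slope filtration, leading terms of elements, multiplication
-/

open MvPolynomial

namespace Vale.Agent.P221.T.H609

section

variable {p : ℕ} [Fact p.Prime] {n : ℕ} (ld : Lead p n) {M : Type} [AddCommGroup M]
  [Module (KK p) M] {r : ℕ} (e a : Fin r → ℤ) (y : Fin r → M)

variable (n) in
/-- the filtration -/
noncomputable def FM (s k : ℤ) : AddSubgroup M where
  carrier := {z | ∃ f : Fin r → MvPolynomial (Fin n) ℤ_[p], Rp e a y s k f z}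
  zero_mem' := ⟨0, Rp.zero s k⟩
  add_mem' := by
    rintro x z ⟨f, hf⟩ ⟨f', hf'⟩
    exact ⟨f + f', hf.add hf'⟩
  neg_mem' := by
    rintro x ⟨f, hf⟩
    refine ⟨0 - f, ?_⟩
    have := (Rp.zero (e := e) (a := a) (y := y) s k).sub hf
    rwa [zero_sub x] at this

/-- the associated graded module -/
abbrev NM : Type := (Fin r → RR p n) ⧸ KR ld e a y

/-- its grading -/
noncomputable def gM (k s : ℤ) : AddSubgroup (NM ld e a y) :=
  (grFree p n e a k s).map (KR ld e a y).mkQ.toAddMonoidHom

open Classical in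
/-- the leading term of an element -/
noncomputable def cl (s k : ℤ) (z : M) : NM ld e a y :=
  if h : ∃ f : Fin r → MvPolynomial (Fin n) ℤ_[p], Rp e a y s k f z then
    (KR ld e a y).mkQ (lead ld a s h.choose) else 0

variable {e a y}

lemma mem_FM {s k : ℤ} {z : M} : z ∈ FM (p := p) n e a y s k ↔
    ∃ f : Fin r → MvPolynomial (Fin n) ℤ_[p], Rp e a y s k f z := Iff.rfl

lemma FM_mono {s s' k : ℤ} (h : s' ≤ s) :
    FM (p := p) n e a y s k ≤ FM (p := p) n e a y s' k := by
  rintro z ⟨f, hf⟩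
  exact ⟨f, hf.mono h⟩

lemma cl_eq {s k : ℤ} {f : Fin r → MvPolynomial (Fin n) ℤ_[p]} {z : M}
    (h : Rp e a y s k f z) : cl ld e a y s k z = (KR ld e a y).mkQ (lead ld a s f) := by
  have h1 : ∃ f : Fin r → MvPolynomial (Fin n) ℤ_[p], Rp e a y s k f z := ⟨f, h⟩
  unfold cl
  rw [dif_pos h1, ← sub_eq_zero, ← map_sub, Submodule.mkQ_apply, Submodule.Quotient.mk_eq_zero,
    ← lead_sub ld h1.choose_spec h]
  refine Submodule.subset_span ⟨s, k, _, ?_, rfl⟩
  have := h1.choose_spec.sub h
  rwa [sub_self] at this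

lemma cl_of_not {s k : ℤ} {z : M} (h : z ∉ FM (p := p) n e a y s k) :
    cl ld e a y s k z = 0 := by
  unfold cl
  rw [dif_neg]
  exact h

lemma cl_add {s k : ℤ} {z z' : M} (h : z ∈ FM (p := p) n e a y s k)
    (h' : z' ∈ FM (p := p) n e a y s k) :
    cl ld e a y s k (z + z') = cl ld e a y s k z + cl ld e a y s k z' := by
  obtain ⟨f, hf⟩ := h
  obtain ⟨f', hf'⟩ := h'
  rw [cl_eq ld hf, cl_eq ld hf', cl_eq ld (hf.add hf'), lead_add ld hf hf', map_add]

lemma cl_zero (s k : ℤ) : cl ld e a y s k (0 : M) = 0 := by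
  rw [cl_eq ld (Rp.zero s k), lead_zero, map_zero]

lemma cl_sum {s k : ℤ} {ι : Type} (t : Finset ι) (z : ι → M)
    (h : ∀ i ∈ t, z i ∈ FM (p := p) n e a y s k) :
    cl ld e a y s k (∑ i ∈ t, z i) = ∑ i ∈ t, cl ld e a y s k (z i) := by
  classical
  induction t using Finset.induction_on with
  | empty => rw [Finset.sum_empty, Finset.sum_empty, cl_zero]
  | insert i t hi ih =>
    rw [Finset.sum_insert hi, Finset.sum_insert hi,
      cl_add ld (h i (Finset.mem_insert_self _ _))
        (AddSubgroup.sum_mem _ fun j hj => h j (Finset.mem_insert_of_mem hj)),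
      ih fun j hj => h j (Finset.mem_insert_of_mem hj)]

lemma cl_succ {s k : ℤ} {z : M} (h : z ∈ FM (p := p) n e a y (s + 1) k) :
    cl ld e a y s k z = 0 := by
  obtain ⟨f, hf⟩ := h
  rw [cl_eq ld (hf.mono (by omega)), lead_succ ld hf, map_zero]

lemma cl_eq_zero_iff {s k : ℤ} {z : M} (h : z ∈ FM (p := p) n e a y s k) :
    cl ld e a y s k z = 0 ↔ z ∈ FM (p := p) n e a y (s + 1) k := by
  refine ⟨fun h0 => ?_, fun h0 => cl_succ ld h0⟩
  obtain ⟨f, hf⟩ := h
  rw [cl_eq ld hf, Submodule.mkQ_apply, Submodule.Quotient.mk_eq_zero] at h0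
  obtain ⟨f', hf', e1⟩ := exists_of_mem_KR ld (lead_mem ld hf) h0
  have h1 := hf.sub hf'
  rw [sub_zero] at h1
  have h2 : lead ld a s (f - f') = 0 := by
    rw [lead_sub ld hf hf', e1, sub_self]
  refine ⟨f - f', h1.hom, fun i => ?_, h1.eq⟩
  by_cases hs : 0 ≤ s - a i
  · have h3 := ld.inj hs (h1.mem i) (congrFun h2 i)
    have h4 : s + 1 - a i = s - a i + 1 := by ring
    rw [h4]
    exact h3
  · exact Ip_nonpos (by omega) _

lemma cl_mem (s k : ℤ) (z : M) : cl ld e a y s k z ∈ gM ld e a y k s := by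
  by_cases h : z ∈ FM (p := p) n e a y s k
  · obtain ⟨f, hf⟩ := h
    rw [cl_eq ld hf]
    exact ⟨_, lead_mem ld hf, rfl⟩
  · rw [cl_of_not ld h]
    exact AddSubgroup.zero_mem _

lemma grR_neg {k s : ℤ} (hs : s < 0) {g : RR p n} (h : g ∈ grR p n k s) : g = 0 := by
  ext d
  rw [coeff_zero]
  by_contra h0
  have h1 : Finsupp.weight (fun _ : Fin (n + 1) => (1 : ℤ)) d = s := h.2 h0
  have h2 : 0 ≤ Finsupp.weight (fun _ : Fin (n + 1) => (1 : ℤ)) d := by
    rw [Finsupp.weight_apply, Finsupp.sum]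
    refine Finset.sum_nonneg fun i _ => ?_
    rw [nsmul_eq_mul]
    positivity
  omega

lemma cl_surj {s k : ℤ} {x : NM ld e a y} (hx : x ∈ gM ld e a y k s) :
    ∃ z ∈ FM (p := p) n e a y s k, cl ld e a y s k z = x := by
  obtain ⟨g, hg, rfl⟩ := hx
  have h1 : ∀ i, ∃ f : MvPolynomial (Fin n) ℤ_[p], HK p (k - e i) (rn p n f) ∧
      rn p n f ∈ Ip p (s - a i) ∧ ld.L (s - a i) (rn p n f) = g i := by
    intro i
    by_cases hs : 0 ≤ s - a i
    · obtain ⟨f, h2, h3, h4⟩ := ld.surj hs (hg i)
      exact ⟨f, h3, h2, h4⟩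
    · refine ⟨0, ?_, ?_, ?_⟩
      · rw [map_zero]; exact HK_zero _
      · rw [map_zero]; exact Ideal.zero_mem _
      · rw [grR_neg (by omega) (hg i)]
        exact ld.neg _ (by omega)
  choose f hf1 hf2 hf3 using h1
  have h2 : Rp e a y s k f (∑ i, rn p n (f i) • y i) := ⟨hf1, hf2, rfl⟩
  refine ⟨_, ⟨f, h2⟩, ?_⟩
  rw [cl_eq ld h2]
  have h3 : lead ld a s f = g := funext hf3
  rw [h3]
  rfl

/-! ### multiplication -/

variable (e a y) in
/-- multiplication by `q` raises the degree by `m`, the filtration by `t`, and the leading terms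
multiply -/
structure Good (t m : ℤ) (q : KK p) : Prop where
  ip : q ∈ Ip p t
  mem : ∀ {s k : ℤ} {z : M}, z ∈ FM (p := p) n e a y s k →
    q • z ∈ FM (p := p) n e a y (s + t) (k + m)
  cl : ∀ {s k : ℤ} {z : M}, z ∈ FM (p := p) n e a y s k →
    cl ld e a y (s + t) (k + m) (q • z) = ld.L t q • cl ld e a y s k z

lemma good_rn {t m : ℤ} (ht : 0 ≤ t) {q : MvPolynomial (Fin n) ℤ_[p]} (hq : HK p m (rn p n q))
    (hq' : rn p n q ∈ Ip p t) : Good ld e a y t m (rn p n q) where
  ip := hq'
  mem := by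
    rintro s k z ⟨f, hf⟩
    exact ⟨_, hf.mul hq hq'⟩
  cl := by
    rintro s k z ⟨f, hf⟩
    rw [cl_eq ld hf, cl_eq ld (hf.mul hq hq'), lead_mul ld hf ht hq', map_smul]

lemma good_lower {t t' m : ℤ} (h : t < t') {q : KK p} (hq : q ∈ Ip p t')
    (hm : ∀ {s k : ℤ} {z : M}, z ∈ FM (p := p) n e a y s k →
      q • z ∈ FM (p := p) n e a y (s + t') (k + m)) : Good ld e a y t m q where
  ip := Ip_mono h.le hq
  mem := fun hz => FM_mono (by omega) (hm hz)
  cl := by
    intro s k z hz
    rw [L_zero' ld (Ip_mono (by omega : t + 1 ≤ t') hq), zero_smul]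
    exact cl_succ ld (FM_mono (by omega) (hm hz))

lemma Good.mul {t m t' m' : ℤ} {q q' : KK p} (h : Good ld e a y t m q)
    (h' : Good ld e a y t' m' q') (ht : 0 ≤ t) : Good ld e a y (t + t') (m + m') (q * q') where
  ip := Ip_mul h.ip h'.ip
  mem := by
    intro s k z hz
    have h1 := h.mem (h'.mem hz)
    rw [mul_smul]
    have e1 : s + (t + t') = s + t' + t := by ring
    have e2 : k + (m + m') = k + m' + m := by ring
    rw [e1, e2]
    exact h1
  cl := by
    intro s k z hz
    have h1 := h.cl (h'.mem hz)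
    rw [mul_smul, L_mul ld ht h.ip h'.ip, mul_smul, ← h'.cl hz, ← h1]
    have e1 : s + (t + t') = s + t' + t := by ring
    have e2 : k + (m + m') = k + m' + m := by ring
    rw [e1, e2]

lemma Good.add {t m : ℤ} {q q' : KK p} (h : Good ld e a y t m q)
    (h' : Good ld e a y t m q') : Good ld e a y t m (q + q') where
  ip := Ideal.add_mem _ h.ip h'.ip
  mem := by
    intro s k z hz
    rw [add_smul]
    exact AddSubgroup.add_mem _ (h.mem hz) (h'.mem hz)
  cl := by
    intro s k z hz
    rw [add_smul, cl_add ld (h.mem hz) (h'.mem hz), h.cl hz, h'.cl hz, ld.add h.ip h'.ip,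
      add_smul]

lemma Good.zero {t m : ℤ} : Good ld e a y t m (0 : KK p) where
  ip := Ideal.zero_mem _
  mem := by
    intro s k z _
    rw [zero_smul]
    exact AddSubgroup.zero_mem _
  cl := by
    intro s k z _
    rw [zero_smul, cl_zero, L_zero' ld (Ideal.zero_mem _), zero_smul]

lemma Good.sum {t m : ℤ} {ι : Type} (u : Finset ι) (q : ι → KK p)
    (h : ∀ i ∈ u, Good ld e a y t m (q i)) : Good ld e a y t m (∑ i ∈ u, q i) := by
  classical
  induction u using Finset.induction_on with
  | empty => exact Good.zero ld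
  | insert i u hi ih =>
    rw [Finset.sum_insert hi]
    exact (h i (Finset.mem_insert_self _ _)).add ld
      (ih fun j hj => h j (Finset.mem_insert_of_mem hj))

variable (n e a y) in
/-- the action of `v_j`, `j > n`, raises the filtration by two -/
def Two : Prop := ∀ (i : ℕ), n ≤ i → ∀ {s k : ℤ} {z : M}, z ∈ FM (p := p) n e a y s k →
  (X i : KK p) • z ∈ FM (p := p) n e a y (s + 2) (k + sV p (i + 1))

variable (h2 : Two (p := p) n e a y)

include h2

lemma good_X (i : ℕ) : Good ld e a y 1 (sV p (i + 1)) (X i : KK p) := by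
  by_cases hi : i < n
  · have h1 := good_rn (e := e) (a := a) (y := y) ld (by norm_num : (0 : ℤ) ≤ 1)
      (vn_HK (p := p) (n := n) (Fin.succ ⟨i, hi⟩)) (vn_mem _)
    unfold vn at h1
    simp only [Fin.cases_succ] at h1
    rw [rn, rename_X] at h1
    exact h1
  · refine ⟨X_mem i, ?_, ?_⟩
    · intro s k z hz
      exact FM_mono (by omega) (h2 i (by omega) hz)
    · intro s k z hz
      rw [ld.v_ge i (by omega), zero_smul]
      refine cl_succ ld ?_
      have := h2 i (by omega) hz
      rwa [show s + 1 + 1 = s + 2 by ring]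

lemma good_monomial (μ : ℕ →₀ ℕ) : Good ld e a y (μ.degree : ℤ)
    (Finsupp.weight (fun i : ℕ => sV p (i + 1)) μ) (monomial μ (1 : ℤ_[p])) := by
  have h0 : Good ld e a y 0 0 (1 : KK p) := by
    have h1 := good_rn (e := e) (a := a) (y := y) (m := 0) ld (le_refl (0 : ℤ))
      (q := (1 : MvPolynomial (Fin n) ℤ_[p])) (by
        rw [map_one]; exact isWeightedHomogeneous_one _ _) (by
        rw [map_one]; exact Ip_nonpos le_rfl _)
    rwa [map_one] at h1
  induction μ using Finsupp.induction_linear with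
  | zero =>
    rw [map_zero, map_zero]
    exact h0
  | add f g hf hg =>
    have h3 := hf.mul ld hg (by positivity)
    rw [monomial_mul, one_mul] at h3
    rw [map_add, map_add]
    push_cast
    exact h3
  | single i b =>
    induction b with
    | zero =>
      rw [Finsupp.single_zero, map_zero, map_zero]
      exact h0
    | succ b ih =>
      have h3 := ih.mul ld (good_X ld h2 i) (by positivity)
      rw [Finsupp.degree_single, Finsupp.weight_single] at h3
      rw [Finsupp.degree_single, Finsupp.weight_single, succ_nsmul, Finsupp.single_add]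
      have h4 : (monomial (Finsupp.single i b) (1 : ℤ_[p]) * X i : KK p) =
          monomial (Finsupp.single i b + Finsupp.single i 1) 1 := by
        rw [X, monomial_mul, one_mul]
      rw [h4] at h3
      push_cast
      exact h3

/-- every homogeneous element of `I^t` -/
theorem good_of {t m : ℤ} (ht : 0 ≤ t) {q : KK p} (hq : HK p m q) (hq' : q ∈ Ip p t) :
    Good ld e a y t m q := by
  classical
  rw [q.as_sum]
  refine Good.sum ld _ _ fun μ hμ => ?_
  have hw : Finsupp.weight (fun i : ℕ => sV p (i + 1)) μ = m := hq (by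
    rwa [mem_support_iff] at hμ)
  unfold Ip at hq'
  rw [mem_pow_iff] at hq'
  obtain ⟨c, hc⟩ := hq' μ
  have h1 := good_monomial ld h2 μ
  rw [hw] at h1
  have h3 : Good ld e a y ((t.toNat - μ.degree : ℕ) : ℤ) 0
      (C ((p : ℤ_[p]) ^ (t.toNat - μ.degree) * c) : KK p) := by
    have h4 := good_rn (e := e) (a := a) (y := y) (m := 0) ld
      (Int.natCast_nonneg (t.toNat - μ.degree))
      (q := (C ((p : ℤ_[p]) ^ (t.toNat - μ.degree) * c) : MvPolynomial (Fin n) ℤ_[p])) (by
        rw [rn, rename_C]; exact HK_C _) (by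
        rw [rn, rename_C, C_mul, C_pow]
        refine Ideal.mul_mem_right _ _ ?_
        unfold Ip
        rw [Int.toNat_natCast]
        refine Ideal.pow_mem_pow ?_ _
        have := p_mem (p := p)
        unfold Ip at this
        rwa [Int.toNat_one, pow_one] at this)
    rwa [rn, rename_C] at h4
  have h5 := h3.mul ld h1 (by positivity)
  rw [C_mul_monomial, mul_one, ← hc, zero_add] at h5
  by_cases hlt : t < ((t.toNat - μ.degree : ℕ) : ℤ) + (μ.degree : ℤ)
  · exact good_lower ld hlt h5.ip h5.mem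
  · have h6 : ((t.toNat - μ.degree : ℕ) : ℤ) + (μ.degree : ℤ) = t := by omega
    rw [h6] at h5
    exact h5

end

end Vale.Agent.P221.T.H609
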