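import Vale.Agent.P221.T.Coor

/-!
# P221, part T: the powers of the ideal `(p, v_1, v_2, …)` by coefficients
-/

open MvPolynomial

namespace Vale.Agent.P221.T.H609

section

variable {p : ℕ} [Fact p.Prime]

/-- the condition on coefficients -/
def InP (t : ℕ) (f : KK p) : Prop := ∀ μ : ℕ →₀ ℕ, (p : ℤ_[p]) ^ (t - μ.degree) ∣ f.coeff μ

lemma InP.zero (t : ℕ) : InP t (0 : KK p) := fun μ => by simp

lemma InP.add {t : ℕ} {f g : KK p} (hf : InP t f) (hg : InP t g) : InP t (f + g) := fun μ => by
  rw [coeff_add]; exact dvd_add (hf μ) (hg μ)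

lemma InP.mul_left {t : ℕ} (f : KK p) {g : KK p} (hg : InP t g) : InP t (f * g) := fun μ => by
  classical
  rw [coeff_mul]
  refine Finset.dvd_sum fun x hx => ?_
  rw [Finset.mem_antidiagonal] at hx
  refine Dvd.dvd.mul_left ?_ _
  refine dvd_trans (pow_dvd_pow _ ?_) (hg x.2)
  have : x.2.degree ≤ μ.degree := by
    rw [← hx, map_add]; omega
  omega

lemma InP.p_mul {t : ℕ} {g : KK p} (hg : InP t g) : InP (t + 1) ((p : KK p) * g) := fun μ => by
  have h1 : (p : KK p) = C (p : ℤ_[p]) := by simp
  rw [h1, coeff_C_mul]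
  refine dvd_trans (pow_dvd_pow _ (by omega : t + 1 - μ.degree ≤ (t - μ.degree) + 1)) ?_
  rw [pow_succ']
  exact mul_dvd_mul_left _ (hg μ)

lemma degree_sub {i : ℕ} {μ : ℕ →₀ ℕ} (h : i ∈ μ.support) :
    (μ - Finsupp.single i 1).degree + 1 = μ.degree := by
  have hle : Finsupp.single i 1 ≤ μ := by
    rw [Finsupp.single_le_iff]
    rw [Finsupp.mem_support_iff] at h
    omega
  conv_rhs => rw [← tsub_add_cancel_of_le hle]
  rw [map_add, Finsupp.degree_single]

lemma InP.X_mul {t : ℕ} (i : ℕ) {g : KK p} (hg : InP t g) : InP (t + 1) (X i * g) := fun μ => by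
  classical
  rw [coeff_X_mul']
  split_ifs with h
  · refine dvd_trans (pow_dvd_pow _ ?_) (hg _)
    have := degree_sub h
    omega
  · exact dvd_zero _

lemma mem_pow_iff {t : ℕ} {f : KK p} : f ∈ II p ^ t ↔ InP t f := by
  classical
  constructor
  · induction t generalizing f with
    | zero =>
      intro _ μ
      simp
    | succ t ih =>
      intro h
      rw [pow_succ'] at h
      refine Submodule.mul_induction_on h ?_ ?_
      · intro m hm g hg
        have hg' := ih hg
        unfold II at hm
        refine Submodule.span_induction (p := fun m _ => InP (t + 1) (m * g)) ?_ ?_ ?_ ?_ hm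
        · rintro x hx
          rcases hx with rfl | ⟨i, rfl⟩
          · exact hg'.p_mul
          · exact hg'.X_mul i
        · rw [zero_mul]; exact InP.zero _
        · intro x y _ _ hx hy
          rw [add_mul]; exact hx.add hy
        · intro a x _ hx
          rw [smul_eq_mul, mul_assoc]
          exact hx.mul_left a
      · intro x y hx hy
        exact hx.add hy
  · intro h
    rw [f.as_sum]
    refine Ideal.sum_mem _ fun μ _ => ?_
    obtain ⟨c, hc⟩ := h μ
    have hp : (C (p : ℤ_[p]) : KK p) ∈ II p := by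
      have : (C (p : ℤ_[p]) : KK p) = (p : KK p) := by simp
      rw [this]
      exact Ideal.subset_span (Set.mem_insert _ _)
    have hX : ∀ i, (X i : KK p) ∈ II p := fun i =>
      Ideal.subset_span (Set.mem_insert_of_mem _ ⟨i, rfl⟩)
    have h1 : monomial μ (1 : ℤ_[p]) ∈ II p ^ μ.degree := by
      rw [monomial_eq, C_1, one_mul, Finsupp.degree_apply, Finsupp.prod, ← Finset.prod_pow_eq_pow_sum]
      exact Ideal.prod_mem_prod fun i _ => Ideal.pow_mem_pow (hX i) _
    have h2 : monomial μ (coeff μ f) =
        C (p : ℤ_[p]) ^ (t - μ.degree) * monomial μ (1 : ℤ_[p]) * C c := by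
      rw [hc, ← C_pow, C_mul_monomial, mul_one, mul_comm (monomial μ _) (C c), C_mul_monomial,
        mul_comm c]
    rw [h2]
    refine Ideal.mul_mem_right _ _ ?_
    refine Ideal.pow_le_pow_right (by omega : t ≤ (t - μ.degree) + μ.degree) ?_
    rw [pow_add]
    exact Ideal.mul_mem_mul (Ideal.pow_mem_pow hp _) h1

end

end Vale.Agent.P221.T.H609
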