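import Vale.Agent.P221.T.H609.Slope

/-!
# P221, part T: the associated graded module of the slope filtration
-/

open MvPolynomial

namespace Vale.Agent.P221.T.H609

section

variable {p : ℕ} [Fact p.Prime] {n : ℕ}

/-! ### powers of the ideal, homogeneity -/

lemma Ip_mono {s t : ℤ} (h : s ≤ t) : Ip p t ≤ Ip p s :=
  Ideal.pow_le_pow_right (Int.toNat_le_toNat h)

lemma Ip_mul {s t : ℤ} {f g : KK p} (hf : f ∈ Ip p t) (hg : g ∈ Ip p s) :
    f * g ∈ Ip p (t + s) := by
  have h1 : f * g ∈ II p ^ (t.toNat + s.toNat) := by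
    rw [pow_add]; exact Ideal.mul_mem_mul hf hg
  exact Ideal.pow_le_pow_right (by omega) h1

lemma Ip_nonpos {t : ℤ} (h : t ≤ 0) (f : KK p) : f ∈ Ip p t := by
  unfold Ip
  rw [Int.toNat_of_nonpos h, pow_zero, Ideal.one_eq_top]
  trivial

lemma HK_mul {k m : ℤ} {f g : KK p} (hf : HK p k f) (hg : HK p m g) : HK p (k + m) (f * g) :=
  IsWeightedHomogeneous.mul hf hg

lemma HK_add {k : ℤ} {f g : KK p} (hf : HK p k f) (hg : HK p k g) : HK p k (f + g) :=
  (weightedHomogeneousSubmodule ℤ_[p] (fun i => sV p (i + 1)) k).add_mem hf hg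

lemma HK_sub {k : ℤ} {f g : KK p} (hf : HK p k f) (hg : HK p k g) : HK p k (f - g) :=
  (weightedHomogeneousSubmodule ℤ_[p] (fun i => sV p (i + 1)) k).sub_mem hf hg

lemma HK_zero (k : ℤ) : HK p k (0 : KK p) :=
  (weightedHomogeneousSubmodule ℤ_[p] (fun i => sV p (i + 1)) k).zero_mem

lemma HK_C (c : ℤ_[p]) : HK p 0 (C c : KK p) := isWeightedHomogeneous_C _ c

lemma HK_X (i : ℕ) : HK p (sV p (i + 1)) (X i : KK p) := isWeightedHomogeneous_X _ _ i

/-! ### leading terms -/

variable (ld : Lead p n)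

lemma L_zero' {t : ℤ} {f : KK p} (h : f ∈ Ip p (t + 1)) : ld.L t f = 0 := by
  by_cases ht : t < 0
  · exact ld.neg f ht
  · exact ld.zero (by omega) h

lemma L_sub {t : ℤ} {f g : KK p} (hf : f ∈ Ip p t) (hg : g ∈ Ip p t) :
    ld.L t (f - g) = ld.L t f - ld.L t g := by
  have h1 := ld.add (Ideal.sub_mem _ hf hg) hg
  rw [sub_add_cancel] at h1
  rw [h1, add_sub_cancel_right]

lemma L_mul {t s : ℤ} {f g : KK p} (ht : 0 ≤ t) (hf : f ∈ Ip p t) (hg : g ∈ Ip p s) :
    ld.L (t + s) (f * g) = ld.L t f * ld.L s g := by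
  by_cases hs : 0 ≤ s
  · exact ld.mul ht hs hf hg
  · rw [ld.neg g (by omega), mul_zero]
    refine L_zero' ld ?_
    refine Ideal.mul_mem_right _ _ ?_
    exact Ip_mono (by omega) hf

lemma L_homog {t k : ℤ} {f : KK p} (hf : f ∈ Ip p t) (hk : HK p k f) :
    ld.L t f ∈ grR p n k t := by
  by_cases ht : 0 ≤ t
  · exact ld.homog ht hf hk
  · rw [ld.neg f (by omega)]
    exact AddSubgroup.zero_mem _

/-- `p, v_1, …, v_n` -/
noncomputable def vn (b : Fin (n + 1)) : MvPolynomial (Fin n) ℤ_[p] :=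
  Fin.cases (C (p : ℤ_[p])) (fun i => X i) b

lemma p_mem : (C (p : ℤ_[p]) : KK p) ∈ Ip p 1 := by
  have h1 : (C (p : ℤ_[p]) : KK p) = (p : KK p) := by simp
  unfold Ip
  rw [h1, Int.toNat_one, pow_one]
  exact Ideal.subset_span (Set.mem_insert _ _)

lemma X_mem (i : ℕ) : (X i : KK p) ∈ Ip p 1 := by
  unfold Ip
  rw [Int.toNat_one, pow_one]
  exact Ideal.subset_span (Set.mem_insert_of_mem _ ⟨i, rfl⟩)

lemma vn_mem (b : Fin (n + 1)) : rn p n (vn b) ∈ Ip p 1 := by
  refine Fin.cases ?_ (fun i => ?_) b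
  · unfold vn
    simp only [Fin.cases_zero]
    rw [rn, rename_C]
    exact p_mem
  · unfold vn
    simp only [Fin.cases_succ]
    rw [rn, rename_X]
    exact X_mem _

lemma vn_HK (b : Fin (n + 1)) : HK p (sV p b) (rn p n (vn b)) := by
  refine Fin.cases ?_ (fun i => ?_) b
  · unfold vn
    simp only [Fin.cases_zero]
    rw [rn, rename_C]
    have : sV p ((0 : Fin (n + 1)) : ℕ) = 0 := by simp [sV]
    rw [this]
    exact HK_C _
  · unfold vn
    simp only [Fin.cases_succ]
    rw [rn, rename_X]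
    exact HK_X _

lemma vn_L (b : Fin (n + 1)) : ld.L 1 (rn p n (vn b)) = X b := by
  refine Fin.cases ?_ (fun i => ?_) b
  · unfold vn
    simp only [Fin.cases_zero]
    rw [rn, rename_C]
    have h1 : (C (p : ℤ_[p]) : KK p) = (p : KK p) := by simp
    rw [h1]
    exact ld.p_eq
  · unfold vn
    simp only [Fin.cases_succ]
    rw [rn, rename_X]
    exact ld.v_lt i i.2

/-! ### components -/

/-- bihomogeneous components -/
noncomputable def cp (k s : ℤ) : RR p n →ₗ[ZMod p] RR p n :=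
  weightedHomogeneousComponent (fun b : Fin (n + 1) => (sV p b, (1 : ℤ))) (k, s)

lemma weight_prod (d : Fin (n + 1) →₀ ℕ) :
    Finsupp.weight (fun b : Fin (n + 1) => (sV p b, (1 : ℤ))) d =
      (Finsupp.weight (fun b : Fin (n + 1) => sV p b) d,
        Finsupp.weight (fun _ : Fin (n + 1) => (1 : ℤ)) d) := by
  induction d using Finsupp.induction_linear with
  | zero => rw [map_zero, map_zero, map_zero]; rfl
  | add f g hf hg => rw [map_add, map_add, map_add, hf, hg]; rfl
  | single a b => simp [Finsupp.weight_single]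

lemma coeff_cp (k s : ℤ) (g : RR p n) (d : Fin (n + 1) →₀ ℕ) :
    (cp k s g).coeff d = if Finsupp.weight (fun b : Fin (n + 1) => sV p b) d = k ∧
      Finsupp.weight (fun _ : Fin (n + 1) => (1 : ℤ)) d = s then g.coeff d else 0 := by
  unfold cp
  rw [coeff_weightedHomogeneousComponent, weight_prod]
  simp only [Prod.mk.injEq]

lemma cp_same {k s : ℤ} {g : RR p n} (h : g ∈ grR p n k s) : cp k s g = g := by
  ext d
  rw [coeff_cp]
  split_ifs with h1
  · rfl
  · by_contra h2
    exact h1 ⟨h.1 (Ne.symm h2), h.2 (Ne.symm h2)⟩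

lemma cp_ne {k s k' s' : ℤ} {g : RR p n} (h : g ∈ grR p n k s) (hne : ¬ (k' = k ∧ s' = s)) :
    cp k' s' g = 0 := by
  ext d
  rw [coeff_cp]
  split_ifs with h1
  · by_contra h2
    rw [coeff_zero] at h2
    have h3 : Finsupp.weight (fun b : Fin (n + 1) => sV p b) d = k := h.1 h2
    have h4 : Finsupp.weight (fun _ : Fin (n + 1) => (1 : ℤ)) d = s := h.2 h2
    exact hne ⟨by rw [← h1.1, h3], by rw [← h1.2, h4]⟩
  · rfl

lemma cp_X_mul (k s : ℤ) (b : Fin (n + 1)) (g : RR p n) :
    cp k s (X b * g) = X b * cp (k - sV p b) (s - 1) g := by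
  classical
  ext d
  rw [coeff_cp, coeff_X_mul', coeff_X_mul', coeff_cp]
  by_cases hb : b ∈ d.support
  · rw [if_pos hb, if_pos hb]
    have hle : Finsupp.single b 1 ≤ d := by
      rw [Finsupp.single_le_iff]
      rw [Finsupp.mem_support_iff] at hb
      omega
    have e1 : Finsupp.weight (fun b : Fin (n + 1) => sV p b) d =
        Finsupp.weight (fun b : Fin (n + 1) => sV p b) (d - Finsupp.single b 1) + sV p b := by
      conv_lhs => rw [← tsub_add_cancel_of_le hle]
      rw [map_add, Finsupp.weight_single, one_smul]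
    have e2 : Finsupp.weight (fun _ : Fin (n + 1) => (1 : ℤ)) d =
        Finsupp.weight (fun _ : Fin (n + 1) => (1 : ℤ)) (d - Finsupp.single b 1) + 1 := by
      conv_lhs => rw [← tsub_add_cancel_of_le hle]
      rw [map_add, Finsupp.weight_single, one_smul]
    rw [e1, e2]
    congr 1
    rw [eq_sub_iff_add_eq, eq_sub_iff_add_eq]
  · rw [if_neg hb, if_neg hb, ite_self]

lemma cp_mem (k s : ℤ) (g : RR p n) : cp k s g ∈ grR p n k s := by
  refine ⟨?_, ?_⟩
  · intro d hd
    rw [coeff_cp] at hd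
    split_ifs at hd with h
    · exact h.1
    · exact absurd rfl hd
  · intro d hd
    rw [coeff_cp] at hd
    split_ifs at hd with h
    · exact h.2
    · exact absurd rfl hd

/-! ### representatives -/

variable {M : Type} [AddCommGroup M] [Module (KK p) M] {r : ℕ} (e a : Fin r → ℤ) (y : Fin r → M)

/-- `z = ∑ f_i y_i` with `f_i ∈ I^(s - a_i)` homogeneous of degree `k - e_i` -/
structure Rp (s k : ℤ) (f : Fin r → MvPolynomial (Fin n) ℤ_[p]) (z : M) : Prop where
  hom : ∀ i, HK p (k - e i) (rn p n (f i))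
  mem : ∀ i, rn p n (f i) ∈ Ip p (s - a i)
  eq : z = ∑ i, rn p n (f i) • y i

/-- the leading term of a representative -/
noncomputable def lead (s : ℤ) (f : Fin r → MvPolynomial (Fin n) ℤ_[p]) : Fin r → RR p n :=
  fun i => ld.L (s - a i) (rn p n (f i))

variable {e a y}

lemma Rp.zero (s k : ℤ) : Rp e a y s k (0 : Fin r → MvPolynomial (Fin n) ℤ_[p]) 0 where
  hom i := by rw [Pi.zero_apply, map_zero]; exact HK_zero _
  mem i := by rw [Pi.zero_apply, map_zero]; exact Ideal.zero_mem _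
  eq := by simp

lemma Rp.add {s k : ℤ} {f f' : Fin r → MvPolynomial (Fin n) ℤ_[p]} {z z' : M}
    (h : Rp e a y s k f z) (h' : Rp e a y s k f' z') : Rp e a y s k (f + f') (z + z') where
  hom i := by rw [Pi.add_apply, map_add]; exact HK_add (h.hom i) (h'.hom i)
  mem i := by rw [Pi.add_apply, map_add]; exact Ideal.add_mem _ (h.mem i) (h'.mem i)
  eq := by
    rw [h.eq, h'.eq, ← Finset.sum_add_distrib]
    refine Finset.sum_congr rfl fun i _ => ?_
    rw [Pi.add_apply, map_add, add_smul]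

lemma Rp.sub {s k : ℤ} {f f' : Fin r → MvPolynomial (Fin n) ℤ_[p]} {z z' : M}
    (h : Rp e a y s k f z) (h' : Rp e a y s k f' z') : Rp e a y s k (f - f') (z - z') where
  hom i := by rw [Pi.sub_apply, map_sub]; exact HK_sub (h.hom i) (h'.hom i)
  mem i := by rw [Pi.sub_apply, map_sub]; exact Ideal.sub_mem _ (h.mem i) (h'.mem i)
  eq := by
    rw [h.eq, h'.eq, ← Finset.sum_sub_distrib]
    refine Finset.sum_congr rfl fun i _ => ?_
    rw [Pi.sub_apply, map_sub, sub_smul]

lemma Rp.mul {s k t m : ℤ} {f : Fin r → MvPolynomial (Fin n) ℤ_[p]} {z : M}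
    (h : Rp e a y s k f z) {q : MvPolynomial (Fin n) ℤ_[p]} (hq : HK p m (rn p n q))
    (hq' : rn p n q ∈ Ip p t) :
    Rp e a y (s + t) (k + m) (fun i => q * f i) (rn p n q • z) where
  hom i := by
    rw [map_mul]
    have h1 := HK_mul hq (h.hom i)
    have h2 : k + m - e i = m + (k - e i) := by ring
    rw [h2]
    exact h1
  mem i := by
    rw [map_mul]
    have h1 := Ip_mul hq' (h.mem i)
    have h2 : s + t - a i = t + (s - a i) := by ring
    rw [h2]
    exact h1
  eq := by
    rw [h.eq, Finset.smul_sum]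
    refine Finset.sum_congr rfl fun i _ => ?_
    rw [map_mul, mul_smul]

lemma Rp.mono {s s' k : ℤ} (hs : s' ≤ s) {f : Fin r → MvPolynomial (Fin n) ℤ_[p]} {z : M}
    (h : Rp e a y s k f z) : Rp e a y s' k f z where
  hom := h.hom
  mem i := Ip_mono (by omega) (h.mem i)
  eq := h.eq

lemma lead_add {s k : ℤ} {f f' : Fin r → MvPolynomial (Fin n) ℤ_[p]} {z z' : M}
    (h : Rp e a y s k f z) (h' : Rp e a y s k f' z') :
    lead ld a s (f + f') = lead ld a s f + lead ld a s f' := by
  funext i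
  unfold lead
  rw [Pi.add_apply, Pi.add_apply, map_add]
  exact ld.add (h.mem i) (h'.mem i)

lemma lead_sub {s k : ℤ} {f f' : Fin r → MvPolynomial (Fin n) ℤ_[p]} {z z' : M}
    (h : Rp e a y s k f z) (h' : Rp e a y s k f' z') :
    lead ld a s (f - f') = lead ld a s f - lead ld a s f' := by
  funext i
  unfold lead
  rw [Pi.sub_apply, Pi.sub_apply, map_sub]
  exact L_sub ld (h.mem i) (h'.mem i)

lemma lead_mul {s k t : ℤ} {f : Fin r → MvPolynomial (Fin n) ℤ_[p]} {z : M}
    (h : Rp e a y s k f z) (ht : 0 ≤ t) {q : MvPolynomial (Fin n) ℤ_[p]}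
    (hq' : rn p n q ∈ Ip p t) :
    lead ld a (s + t) (fun i => q * f i) = ld.L t (rn p n q) • lead ld a s f := by
  funext i
  unfold lead
  rw [Pi.smul_apply, map_mul, smul_eq_mul, ← L_mul ld ht hq' (h.mem i)]
  congr 1
  ring

lemma lead_zero (s : ℤ) : lead ld a s (0 : Fin r → MvPolynomial (Fin n) ℤ_[p]) = 0 := by
  funext i
  unfold lead
  rw [Pi.zero_apply, map_zero]
  exact L_zero' ld (Ideal.zero_mem _)

lemma lead_mem {s k : ℤ} {f : Fin r → MvPolynomial (Fin n) ℤ_[p]} {z : M}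
    (h : Rp e a y s k f z) : lead ld a s f ∈ grFree p n e a k s :=
  fun i => L_homog ld (h.mem i) (h.hom i)

lemma lead_succ {s k : ℤ} {f : Fin r → MvPolynomial (Fin n) ℤ_[p]} {z : M}
    (h : Rp e a y (s + 1) k f z) : lead ld a s f = 0 := by
  funext i
  unfold lead
  refine L_zero' ld ?_
  have h2 : s - a i + 1 = s + 1 - a i := by ring
  rw [h2]
  exact h.mem i

variable (e a y)

/-- the relations -/
noncomputable def KR : Submodule (RR p n) (Fin r → RR p n) :=
  Submodule.span (RR p n) {g | ∃ (s k : ℤ) (f : Fin r → MvPolynomial (Fin n) ℤ_[p]),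
    Rp e a y s k f 0 ∧ g = lead ld a s f}

/-- components of vectors -/
noncomputable def cmp (k s : ℤ) (g : Fin r → RR p n) : Fin r → RR p n :=
  fun i => cp (k - e i) (s - a i) (g i)

/-- components satisfy relations -/
def PK (g : Fin r → RR p n) : Prop := ∀ k s : ℤ, ∃ f : Fin r → MvPolynomial (Fin n) ℤ_[p],
  Rp e a y s k f 0 ∧ lead ld a s f = cmp e a k s g

variable {e a y}

lemma PK.add {g g' : Fin r → RR p n} (h : PK ld e a y g) (h' : PK ld e a y g') :
    PK ld e a y (g + g') := by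
  intro k s
  obtain ⟨f, hf, e1⟩ := h k s
  obtain ⟨f', hf', e2⟩ := h' k s
  refine ⟨f + f', ?_, ?_⟩
  · have := hf.add hf'
    rwa [add_zero] at this
  · rw [lead_add ld hf hf', e1, e2]
    funext i
    unfold cmp
    rw [Pi.add_apply, Pi.add_apply, map_add]

lemma PK.zero : PK ld e a y (0 : Fin r → RR p n) := by
  intro k s
  refine ⟨0, Rp.zero s k, ?_⟩
  rw [lead_zero]
  funext i
  exact (map_zero (cp (p := p) (n := n) (k - e i) (s - a i))).symm

lemma PK.X_smul {g : Fin r → RR p n} (h : PK ld e a y g) (b : Fin (n + 1)) :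
    PK ld e a y ((X b : RR p n) • g) := by
  intro k s
  obtain ⟨f, hf, e1⟩ := h (k - sV p b) (s - 1)
  refine ⟨fun i => vn b * f i, ?_, ?_⟩
  · have := hf.mul (vn_HK b) (vn_mem b)
    rwa [sub_add_cancel, sub_add_cancel, smul_zero] at this
  · have h2 := lead_mul ld hf (by norm_num : (0 : ℤ) ≤ 1) (vn_mem b)
    rw [sub_add_cancel] at h2
    rw [h2, e1, vn_L]
    funext i
    unfold cmp
    rw [Pi.smul_apply, Pi.smul_apply, smul_eq_mul, smul_eq_mul, cp_X_mul]
    have h3 : k - sV p b - e i = k - e i - sV p b := by ring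
    have h4 : s - 1 - a i = s - a i - 1 := by ring
    rw [h3, h4]

lemma PK.nsmul {g : Fin r → RR p n} (h : PK ld e a y g) (m : ℕ) : PK ld e a y (m • g) := by
  induction m with
  | zero => rw [zero_smul]; exact PK.zero ld
  | succ m ih => rw [succ_nsmul]; exact ih.add ld h

lemma PK.smul (q : RR p n) : ∀ {g : Fin r → RR p n}, PK ld e a y g → PK ld e a y (q • g) := by
  induction q using MvPolynomial.induction_on with
  | C c =>
    intro g hg
    have h1 : (C c : RR p n) • g = c.val • g := by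
      conv_lhs => rw [← ZMod.natCast_zmod_val c]
      rw [map_natCast, Nat.cast_smul_eq_nsmul]
    rw [h1]
    exact hg.nsmul ld _
  | add q q' h h' =>
    intro g hg
    rw [add_smul]
    exact (h hg).add ld (h' hg)
  | mul_X q b h =>
    intro g hg
    rw [mul_smul]
    exact h (hg.X_smul ld b)

lemma PK_of_mem {g : Fin r → RR p n} (h : g ∈ KR ld e a y) : PK ld e a y g := by
  refine Submodule.span_induction (p := fun g _ => PK ld e a y g) ?_ ?_ ?_ ?_ h
  · rintro g ⟨s, k, f, hf, rfl⟩ k' s'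
    by_cases hks : k' = k ∧ s' = s
    · obtain ⟨rfl, rfl⟩ := hks
      refine ⟨f, hf, ?_⟩
      funext i
      unfold cmp
      exact (cp_same (lead_mem ld hf i)).symm
    · refine ⟨0, Rp.zero s' k', ?_⟩
      rw [lead_zero]
      funext i
      unfold cmp
      refine (cp_ne (lead_mem ld hf i) ?_).symm
      rintro ⟨h1, h2⟩
      exact hks ⟨by omega, by omega⟩
  · exact PK.zero ld
  · intro x z _ _ hx hz
    exact hx.add ld hz
  · intro q x _ hx
    exact hx.smul ld q

/-- the key property of the relations -/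
lemma exists_of_mem_KR {s k : ℤ} {g : Fin r → RR p n} (hg : g ∈ grFree p n e a k s)
    (h : g ∈ KR ld e a y) : ∃ f : Fin r → MvPolynomial (Fin n) ℤ_[p],
      Rp e a y s k f 0 ∧ lead ld a s f = g := by
  obtain ⟨f, hf, e1⟩ := PK_of_mem ld h k s
  refine ⟨f, hf, ?_⟩
  rw [e1]
  funext i
  unfold cmp
  exact cp_same (hg i)

end

end Vale.Agent.P221.T.H609
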