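import Vale.Agent.P221.T.H609.Fin

/-!
# P221, part T: the slope filtration, numerics
-/

open MvPolynomial

namespace Vale.Agent.P221.T.H609

section

variable {p : ℕ} [Fact p.Prime] {n : ℕ}

lemma wF_le (μ : Fin n →₀ ℕ) : wF p μ ≤ sV p n * μ.degree := by
  unfold wF
  induction μ using Finsupp.induction_linear with
  | zero => simp
  | add f g hf hg => rw [map_add, map_add]; push_cast; linarith
  | single a b =>
    rw [Finsupp.weight_single, Finsupp.degree_single, nsmul_eq_mul]
    have h1 : sV p (a + 1) ≤ sV p n := by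
      unfold sV
      have hp : (1 : ℤ) ≤ p := by exact_mod_cast (Fact.out : p.Prime).one_lt.le
      have := pow_le_pow_right₀ hp (by have := a.2; omega : (a : ℕ) + 1 ≤ n)
      omega
    nlinarith [(by positivity : (0 : ℤ) ≤ (b : ℤ))]

variable (p n) in
lemma exists_slope {r : ℕ} (e : Fin r → ℤ) : ∃ a : Fin r → ℤ, ∀ (i i' : Fin r) (j : ℕ), n ≤ j →
    ∀ h : MvPolynomial (Fin n) ℤ_[p], HK p (e i + sV p (j + 1) - e i') (rn p n h) →
    rn p n h ∈ Ip p (2 + a i - a i') := by
  rcases Nat.eq_zero_or_pos n with hn | hn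
  · subst hn
    refine ⟨e, fun i i' j _ h hh => ?_⟩
    rw [Ip_rn]
    intro μ
    by_cases h0 : h.coeff μ = 0
    · rw [h0]; exact dvd_zero _
    · have h1 := HK_rn.1 hh μ h0
      have h2 : μ = 0 := Subsingleton.elim _ _
      rw [h2] at h1
      unfold wF at h1
      rw [map_zero] at h1
      have h3 := sV_pos (p := p) j
      have h4 : (2 + e i - e i').toNat - μ.degree = 0 := by omega
      rw [h4, pow_zero]
      exact one_dvd _
  · have hq : 2 ≤ sV p n := by
      obtain ⟨m, rfl⟩ : ∃ m, n = m + 1 := ⟨n - 1, by omega⟩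
      exact sV_pos m
    refine ⟨fun i => e i / sV p n, fun i i' j hj h hh => ?_⟩
    rw [Ip_rn]
    intro μ
    by_cases h0 : h.coeff μ = 0
    · rw [h0]; exact dvd_zero _
    · have h1 := HK_rn.1 hh μ h0
      have h2 := wF_le (p := p) μ
      have h3 : 2 * sV p n ≤ sV p (j + 1) := by
        unfold sV
        have hp : (2 : ℤ) ≤ p := by exact_mod_cast (Fact.out : p.Prime).two_le
        have h5 : (p : ℤ) ^ (n + 1) ≤ p ^ (j + 1) := pow_le_pow_right₀ (by omega) (by omega)
        have h6 : (0 : ℤ) ≤ (p : ℤ) ^ n := by positivity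
        have h7 : (2 : ℤ) * (p : ℤ) ^ n ≤ (p : ℤ) ^ (n + 1) := by
          rw [pow_succ]; nlinarith
        omega
      have h4 : e i / sV p n * sV p n ≤ e i := Int.ediv_mul_le _ (by omega)
      have h5 : e i' < (e i' / sV p n + 1) * sV p n := Int.lt_ediv_add_one_mul_self _ (by omega)
      have h6 : sV p n * (1 + e i / sV p n - e i' / sV p n) < sV p n * μ.degree := by
        nlinarith
      have h7 := lt_of_mul_lt_mul_left h6 (by omega)
      have h8 : (2 + e i / sV p n - e i' / sV p n).toNat - μ.degree = 0 := by omega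
      rw [h8, pow_zero]
      exact one_dvd _

end

end Vale.Agent.P221.T.H609
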